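import Crest.Agent.N221.Hu.Alg

/-! Row 221, block Hu: `J` is a nilpotent ideal, `A p N = A e^n N`, smooth representative. -/

set_option autoImplicit false
set_option linter.unusedSectionVars false
set_option linter.unusedVariables false

open Set Filter Topology Module Polynomial
open scoped ContDiff

noncomputable section

namespace Crest.Agent.N221.Hu

variable {V : Type} [NormedAddCommGroup V] [NormedSpace ℝ V] [FiniteDimensional ℝ V]
  {A : Subalgebra ℝ (V →L[ℝ] V)} {a j p e : V →L[ℝ] V} {N : Submodule ℝ V}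

lemma rad_mem (hj : j ∈ rad A) : j ∈ A := hj.1

lemma rad_left (ha : a ∈ A) (hj : j ∈ rad A) : a * j ∈ rad A :=
  ⟨A.mul_mem ha hj.1, fun b hb => by
    rw [mul_assoc, tr_comm, mul_assoc]; exact hj.2 _ (A.mul_mem hb ha)⟩

lemma rad_right (ha : a ∈ A) (hj : j ∈ rad A) : j * a ∈ rad A :=
  ⟨A.mul_mem hj.1 ha, fun b hb => by rw [mul_assoc]; exact hj.2 _ (A.mul_mem ha hb)⟩

lemma tr_rad (hj : j ∈ rad A) : tr j = 0 := by simpa using hj.2 1 A.one_mem

/-- an idempotent of `J` vanishes -/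
lemma idem_rad (hj : j ∈ rad A) (h : j * j = j) : j = 0 := by
  have h1 : IsIdempotentElem (j : V →ₗ[ℝ] V) := by
    show (j : V →ₗ[ℝ] V) * j = j
    exact congrArg (fun x : V →L[ℝ] V => (x : V →ₗ[ℝ] V)) h
  have := LinearMap.IsIdempotentElem.eq_zero_of_trace_eq_zero h1 (tr_rad hj)
  exact ContinuousLinearMap.coe_injective (by simpa using this)

lemma aeval_mem (ha : a ∈ A) (q : ℝ[X]) : aeval a q ∈ A := by
  rw [aeval_eq_sum_range]
  exact A.sum_mem fun i _ => A.smul_mem (A.pow_mem ha i) _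

/-- every element of `J` is nilpotent -/
lemma rad_nil (hj : j ∈ rad A) : IsNilpotent j := by
  have hi : IsIntegral ℝ j := IsIntegral.of_finite ℝ j
  obtain ⟨q, hq, hn⟩ := exists_eq_pow_rootMultiplicity_mul_and_not_dvd _ (minpoly.ne_zero hi) 0
  set k := (minpoly ℝ j).rootMultiplicity 0
  rw [C_0, sub_zero] at hq hn
  have h0 : q.coeff 0 ≠ 0 := fun h => hn (X_dvd_iff.2 h)
  set r : ℝ[X] := -(C (q.coeff 0)⁻¹ * divX q) with hr
  have e1 : X ^ k = X ^ k * (X * r) + C (q.coeff 0)⁻¹ * minpoly ℝ j := by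
    have := X_mul_divX_add q
    have h2 : C (q.coeff 0)⁻¹ * C (q.coeff 0) = 1 := by rw [← C_mul, inv_mul_cancel₀ h0, C_1]
    rw [hq, hr]
    linear_combination (-(X ^ k : ℝ[X])) * h2 + (C (q.coeff 0)⁻¹ * X ^ k) * this
  set s := j * aeval j r with hs
  have e2 : j ^ k = j ^ k * s := by
    have := congrArg (aeval j) e1
    simpa [hs] using this
  have e3 : ∀ i, j ^ k = j ^ k * s ^ i := fun i => by
    induction i with
    | zero => simp
    | succ i ih => rw [pow_succ, ← mul_assoc, ← ih, ← e2]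
  have hc : Commute j (aeval j r) := by
    have := (Commute.all X r).map (aeval j)
    simpa using this
  have e4 : s ^ (k + 1) * s ^ (k + 1) = s ^ (k + 1) := by
    have : s ^ (k + 1) = (j * aeval j r ^ (k + 1)) * j ^ k := by
      rw [hs, hc.mul_pow, pow_succ' j, mul_assoc, mul_assoc, (hc.pow_pow k (k + 1)).eq]
    calc s ^ (k + 1) * s ^ (k + 1) = (j * aeval j r ^ (k + 1)) * (j ^ k * s ^ (k + 1)) := by
          rw [← mul_assoc, ← this]
      _ = s ^ (k + 1) := by rw [← e3, ← this]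
  have e5 : s ^ (k + 1) = 0 := by
    refine idem_rad (A := A) ?_ e4
    rw [pow_succ']
    exact rad_right (A.pow_mem (A.mul_mem hj.1 (aeval_mem hj.1 r)) k)
      (rad_right (aeval_mem hj.1 r) hj)
  exact ⟨k, by rw [e3 (k + 1), e5, mul_zero]⟩

lemma rad_jac (x : A) (hx : (x : V →L[ℝ] V) ∈ rad A) : x ∈ Ring.jacobson A := by
  rw [← Ideal.jacobson_bot, Ideal.mem_jacobson_iff]
  intro y
  obtain ⟨k, hk⟩ := rad_nil (rad_left y.2 hx)
  have : IsNilpotent (y * x) := ⟨k, Subtype.ext (by simpa using hk)⟩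
  obtain ⟨u, hu⟩ := this.isUnit_add_one
  refine ⟨↑u⁻¹, ?_⟩
  have := u.inv_mul
  rw [hu, mul_add, mul_one, ← mul_assoc] at this
  simp [this]

lemma act_le {S : Set (V →L[ℝ] V)} {M : Submodule ℝ V} (h : ∀ a ∈ S, ∀ v ∈ N, a v ∈ M) :
    act S N ≤ M := Submodule.span_le.2 (by rintro _ ⟨a, ha, v, hv, rfl⟩; exact h a ha v hv)

lemma mem_act {S : Set (V →L[ℝ] V)} {v : V} (ha : a ∈ S) (hv : v ∈ N) : a v ∈ act S N :=
  Submodule.subset_span ⟨a, ha, v, hv, rfl⟩

instance tower (A : Subalgebra ℝ (V →L[ℝ] V)) : IsScalarTower ℝ A V :=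
  ⟨fun c a v => by
    show ((c • a : A) : V →L[ℝ] V) v = c • (a : V →L[ℝ] V) v
    rw [Subalgebra.coe_smul, smul_apply]⟩

/-- dimension of a subspace -/
def dm (W : Submodule ℝ V) : ℕ := finrank ℝ W

lemma jac_chain (R : Type) [Ring R] [Algebra ℝ R] [Module R V] [IsScalarTower ℝ R V] :
    ∃ U : ℕ → Submodule R V, U 0 = ⊤ ∧ U (finrank ℝ V) = ⊥ ∧
      ∀ k, ∀ x ∈ Ring.jacobson R, ∀ v ∈ U k, x • v ∈ U (k + 1) := by
  have : IsNoetherian R V := isNoetherian_of_tower ℝ inferInstance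
  obtain ⟨U, U0, Us⟩ : ∃ U : ℕ → Submodule R V, U 0 = ⊤ ∧
      ∀ k, U (k + 1) = Ring.jacobson R • U k :=
    ⟨fun k => Nat.rec (motive := fun _ => Submodule R V) ⊤ (fun _ W => Ring.jacobson R • W) k,
      rfl, fun _ => rfl⟩
  have key : ∀ k : ℕ, U k = ⊥ ∨ dm ((U k).restrictScalars ℝ) + k ≤ finrank ℝ V := by
    intro k
    induction k with
    | zero => exact Or.inr (Submodule.finrank_le _)
    | succ k h2 =>
      by_cases hU : U k = ⊥
      · exact Or.inl (by simp [Us, hU])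
      · have h3 : U (k + 1) < U k := Us k ▸
          Submodule.FG.jacobson_smul_lt hU (IsNoetherian.noetherian (U k))
        have h4 : (U (k + 1)).restrictScalars ℝ < (U k).restrictScalars ℝ :=
          (Submodule.restrictScalarsEmbedding ℝ R V).strictMono h3
        have h5 : dm _ < dm _ := Submodule.finrank_lt_finrank_of_lt h4
        have := h2.resolve_left hU
        exact Or.inr (by omega)
  refine ⟨U, U0, (key _).elim id fun h => ?_,
    fun k x hx v hv => Us k ▸ Submodule.smul_mem_smul hx hv⟩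
  rw [← Submodule.restrictScalars_eq_bot_iff ℝ]
  have h6 : dm ((U (finrank ℝ V)).restrictScalars ℝ) = 0 := by omega
  exact Submodule.finrank_eq_zero.1 h6

lemma pw_bot (A : Subalgebra ℝ (V →L[ℝ] V)) : pw (rad A) (finrank ℝ V) = ⊥ := by
  obtain ⟨U, h0, h1, h2⟩ := jac_chain (V := V) A
  have key : ∀ k, pw (rad A) k ≤ (U k).restrictScalars ℝ := fun k => by
    induction k with
    | zero => intro v _; rw [h0]; trivial
    | succ k ih => exact act_le fun a ha v hv => h2 k _ (rad_jac ⟨a, ha.1⟩ ha) v (ih hv)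
  refine le_bot_iff.1 fun v hv => ?_
  have := key _ hv
  rwa [h1] at this

theorem jS : JS := fun V _ _ _ A => ⟨fun a ha j hj => ⟨rad_left ha hj, rad_right ha hj⟩, pw_bot A⟩

lemma pow_mem_pw {J : Submodule ℝ (V →L[ℝ] V)} (hj : j ∈ J) (k : ℕ) (v : V) :
    (j ^ k) v ∈ pw J k := by
  induction k with
  | zero => trivial
  | succ k ih => rw [pow_succ']; exact mem_act (a := j) (v := (j ^ k) v) hj ih

lemma rad_pow (hj : j ∈ rad A) : j ^ finrank ℝ V = 0 := by
  ext v
  have := pow_mem_pw hj (finrank ℝ V) v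
  rwa [pw_bot] at this

lemma act_inv : Inv A (act A N) := fun a ha v hv => by
  have : act A N ≤ (act A N).comap (a : V →ₗ[ℝ] V) := act_le fun b hb w hw =>
    Submodule.mem_comap.2 (mem_act (S := A) (a := a * b) (v := w) (A.mul_mem ha hb) hw)
  exact this hv

lemma mem_gen {v : V} (hv : v ∈ N) : p v ∈ gen A p N :=
  mem_act (a := 1) A.one_mem (Submodule.mem_map_of_mem hv)

lemma gen_inv : Inv A (gen A p N) := act_inv

lemma gen_le {M : Submodule ℝ V} (hM : Inv A M) (h : ∀ v ∈ N, p v ∈ M) : gen A p N ≤ M :=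
  act_le (by rintro a ha _ ⟨v, hv, rfl⟩; exact hM a ha _ (h v hv))

lemma pow_gen (hp : p ∈ A) (he : e - p ∈ rad A) (hN : Inv A N) {v : V} (hv : v ∈ N) :
    (e ^ (finrank ℝ V + 1)) v ∈ gen A p N := by
  have heA : e ∈ A := by simpa using A.add_mem he.1 hp
  have key : ∀ k, (e ^ k) v - ((e - p) ^ k) v ∈ gen A p N := fun k => by
    induction k with
    | zero => simp
    | succ k ih =>
      have h1 := gen_inv e heA _ ih
      have h2 := mem_gen (A := A) (p := p) (hN _ (A.pow_mem he.1 k) v hv)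
      convert add_mem h1 h2 using 1
      simp only [pow_succ', mul_apply_eq_comp, map_sub, sub_apply]
      abel
  have := key (finrank ℝ V + 1)
  rwa [pow_succ (e - p), rad_pow he, zero_mul, zero_apply, sub_zero] at this

theorem mS : MS := by
  intro V _ _ _ A p e N hp hpp he hN
  have heA : e ∈ A := by simpa using A.add_mem he.1 hp
  have h1 : ∀ k, p - e ^ (k + 1) ∈ rad A := fun k => by
    induction k with
    | zero => simpa using (rad A).neg_mem he
    | succ k ih =>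
      convert (rad A).sub_mem (rad_left heA ih) (rad_right hp he) using 1
      rw [mul_sub, sub_mul, hpp, ← pow_succ']; abel
  have h2 : p ^ (finrank ℝ V + 1) = p := IsIdempotentElem.pow_succ_eq _ hpp
  refine le_antisymm (gen_le gen_inv fun v hv => ?_) (gen_le gen_inv fun v hv => ?_)
  · have := pow_gen (A.pow_mem heA _) (h1 (finrank ℝ V)) hN hv
    rwa [h2] at this
  · exact pow_gen hp he hN hv

lemma ift {P E : Type} [NormedAddCommGroup P] [NormedSpace ℝ P] [CompleteSpace P]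
    [NormedAddCommGroup E] [NormedSpace ℝ E] [CompleteSpace E] {Φ : P × E → E} {u : P → E} {p : P}
    (hΦ : ContDiffAt ℝ ∞ Φ (p, u p))
    (hi : (fderiv ℝ Φ (p, u p) ∘L ContinuousLinearMap.inr ℝ P E).IsInvertible)
    (hu : ContinuousAt u p) (h0 : ∀ᶠ p' in 𝓝 p, Φ (p', u p') = Φ (p, u p)) :
    ContDiffAt ℝ ∞ u p := by
  refine (hΦ.contDiffAt_implicitFunction (by simp) hi).congr_of_eventuallyEq ?_
  filter_upwards [(continuousAt_id.prodMk hu).tendsto.eventually
    (hΦ.eventually_apply_eq_iff_implicitFunction (by simp) hi), h0] with p' h1 h2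
  exact (h1.1 h2).symm

lemma isInv {E : Type} [NormedAddCommGroup E] [NormedSpace ℝ E] [FiniteDimensional ℝ E]
    {f : E →L[ℝ] E} (h : ∀ x, f x = 0 → x = 0) : f.IsInvertible :=
  ⟨(LinearEquiv.ofInjectiveEndo (f : E →ₗ[ℝ] E) (LinearMap.ker_eq_bot.1
    (LinearMap.ker_eq_bot'.2 h))).toContinuousLinearEquiv, by ext; rfl⟩

lemma inj_aux {q : (V →L[ℝ] V) →L[ℝ] (V →L[ℝ] V)} {u x : V →L[ℝ] V}
    (qm : ∀ a, q a ∈ A) (q1 : ∀ a ∈ A, a - q a ∈ rad A) (q0 : ∀ a ∈ rad A, q a = 0)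
    (qq : ∀ a, q (q a) = q a)
    (h5 : p ∈ A) (h6 : p * p = p) (h7 : ∀ a ∈ A, p * a - a * p ∈ rad A) (hu : p - u ∈ rad A)
    (hx : q (u * q x + q x * u - q x) + (x - q x) = 0) : x = 0 := by
  have uA : u ∈ A := by simpa using A.sub_mem h5 hu.1
  have hx2 : q (u * q x + q x * u - q x) = 0 := by
    have := congrArg q hx
    rwa [map_add, qq, map_sub _ x, qq, sub_self, add_zero, map_zero] at this
  have yA := qm x
  have yq := qq x
  rw [hx2, zero_add] at hx
  generalize q x = y at *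
  have w1 := q1 _ (A.sub_mem (A.add_mem (A.mul_mem uA yA) (A.mul_mem yA uA)) yA)
  rw [hx2, sub_zero] at w1
  have w2 : (p + p - 1) * y ∈ rad A := by
    convert (rad A).add_mem ((rad A).add_mem w1 (h7 y yA)) ((rad A).add_mem
      (rad_left yA hu) (rad_right yA hu)) using 1
    simp only [mul_sub, sub_mul, add_mul, one_mul]; abel
  have w3 : y ∈ rad A := by
    have := rad_left (A.sub_mem (A.add_mem h5 h5) A.one_mem) w2
    rwa [← mul_assoc, show (p + p - 1) * (p + p - 1) = 1 by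
      simp only [mul_sub, sub_mul, add_mul, mul_add, h6, one_mul, mul_one]; abel, one_mul] at this
  rw [q0 y w3] at yq
  rwa [← yq, sub_zero] at hx

lemma der_aux {B : Type} [NormedRing B] [NormedAlgebra ℝ B] {q D : B →L[ℝ] B} {u : B}
    (e : q u = u) (d1 : HasFDerivAt (fun x => q (q x * q x - q x) + (x - q x)) D u) (x : B) :
    D x = q (u * q x + q x * u - q x) + (x - q x) := by
  have d0 := q.hasFDerivAt (x := u)
  have d2 := (q.hasFDerivAt.comp u ((d0.mul' d0).sub d0)).add ((hasFDerivAt_id u).sub d0)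
  rw [d1.unique d2]
  simp [e]

theorem eS : ES := by
  intro P V _ _ _ _ _ _ A p pA pJ z₀ hA hJ hp H
  obtain ⟨q, hqd⟩ : ∃ q : P → (V →L[ℝ] V) →L[ℝ] (V →L[ℝ] V), q = fun z => pA z - pJ z ∘L pA z :=
    ⟨_, rfl⟩
  have hq : ContDiffAt ℝ ∞ q z₀ := hqd ▸ hA.sub (hJ.clm_comp hA)
  have qa : ∀ z a, q z a = pA z a - pJ z (pA z a) := fun z a => by rw [hqd]; rfl
  obtain ⟨u, hud⟩ : ∃ u : P → V →L[ℝ] V, u = fun z => p z - pJ z (p z) := ⟨_, rfl⟩
  have ua : ∀ z, u z = p z - pJ z (p z) := fun z => by rw [hud]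
  rw [← hud]
  let Φ : P × (V →L[ℝ] V) → V →L[ℝ] V := fun w =>
    q w.1 (q w.1 w.2 * q w.1 w.2 - q w.1 w.2) + (w.2 - q w.1 w.2)
  have hq1 : ContDiffAt ℝ ∞ (fun w : P × (V →L[ℝ] V) => q w.1) (z₀, u z₀) :=
    hq.comp (z₀, u z₀) (f := Prod.fst) contDiffAt_fst
  have hq2 : ContDiffAt ℝ ∞ (fun w : P × (V →L[ℝ] V) => q w.1 w.2) (z₀, u z₀) :=
    hq1.clm_apply contDiffAt_snd
  have hΦ : ContDiffAt ℝ ∞ Φ (z₀, u z₀) :=
    (hq1.clm_apply ((hq2.mul hq2).sub hq2)).add (contDiffAt_snd.sub hq2)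
  have H' : ∀ᶠ z in 𝓝 z₀, (∀ a, q z a ∈ A z) ∧ (∀ a ∈ A z, a - q z a ∈ rad (A z)) ∧
      (∀ a ∈ rad (A z), q z a = 0) ∧ (∀ a, q z (q z a) = q z a) ∧ p z - u z ∈ rad (A z) ∧
      q z (u z) = u z ∧ Φ (z, u z) = 0 := by
    filter_upwards [H] with z ⟨h1, h2, h3, h4, h5, h6, h7⟩
    have qm : ∀ a, q z a ∈ A z := fun a => qa z a ▸ (A z).sub_mem (h1 _) (h3 _).1
    have q0 : ∀ a ∈ rad (A z), q z a = 0 := fun a ha => by rw [qa, h2 a ha.1, h4 a ha, sub_self]
    have qq : ∀ a, q z (q z a) = q z a := fun a => by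
      rw [qa z (q z a), h2 _ (qm a), sub_eq_self, qa, map_sub, h4 _ (h3 _), sub_self]
    have hu : p z - u z ∈ rad (A z) := by rw [ua, sub_sub_cancel]; exact h3 _
    have e0 : u z = q z (p z) := by rw [ua, qa, h2 _ h5]
    have e1 : q z (u z) = u z := by rw [e0, qq]
    have e2 : u z * u z - u z ∈ rad (A z) := by
      convert (rad (A z)).add_mem ((rad (A z)).neg_mem ((rad (A z)).add_mem
        (rad_left (e0 ▸ qm _ : u z ∈ A z) hu) (rad_right h5 hu))) hu using 1
      simp only [mul_sub, sub_mul, h6]; abel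
    refine ⟨qm, fun a ha => ?_, q0, qq, hu, e1, ?_⟩
    · rw [qa, h2 a ha, sub_sub_cancel]; exact h3 _
    · show q z (q z (u z) * q z (u z) - q z (u z)) + (u z - q z (u z)) = 0
      rw [e1, q0 _ e2, sub_self, add_zero]
  refine ift (u := u) hΦ (isInv fun x hx => ?_)
    (hud ▸ hp.sub (hJ.continuousAt.clm_apply hp)) ?_
  · obtain ⟨-, -, -, -, h5, h6, h7⟩ := H.self_of_nhds
    obtain ⟨g1, g2, g3, g4, g5, g6, -⟩ := H'.self_of_nhds
    have d1 : HasFDerivAt (fun x => Φ (z₀, x)) (fderiv ℝ Φ (z₀, u z₀) ∘L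
        ContinuousLinearMap.inr ℝ P _) (u z₀) :=
      (hΦ.differentiableAt (by simp)).hasFDerivAt.comp (u z₀) (hasFDerivAt_prodMk_right z₀ (u z₀))
    rw [der_aux g6 d1] at hx
    exact inj_aux g1 g2 g3 g4 h5 h6 h7 g5 hx
  · filter_upwards [H'] with z hz
    rw [hz.2.2.2.2.2.2, H'.self_of_nhds.2.2.2.2.2.2]

end Crest.Agent.N221.Hu
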