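import Mathlib

/-! Row 221, block Hu (hull): the algebra at ONE point.  `h` is a Lie algebra of endomorphisms of `V`,
`env h` its associative envelope `A`, `rad A` the kernel `J` of the trace form on `A`.
Frozen statements: `JS` (J is a nilpotent ideal), `MS`, `PurS` (purity), `LYS` (lemma Y), `ES`
(smooth representative of the projector modulo `J`). -/

set_option autoImplicit false
set_option linter.unusedSectionVars false
set_option linter.unusedVariables false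

open Set Filter Topology Module
open scoped ContDiff

noncomputable section

namespace Crest.Agent.N221.Hu

section Defs
variable {V : Type} [NormedAddCommGroup V] [NormedSpace ℝ V]

/-- trace of a continuous endomorphism -/
def tr (a : V →L[ℝ] V) : ℝ := LinearMap.trace ℝ V (a : V →ₗ[ℝ] V)

/-- closed under commutators -/
def IsLie (h : Submodule ℝ (V →L[ℝ] V)) : Prop := ∀ X ∈ h, ∀ Y ∈ h, X * Y - Y * X ∈ h

/-- the unital associative envelope -/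
def env (h : Submodule ℝ (V →L[ℝ] V)) : Subalgebra ℝ (V →L[ℝ] V) :=
  Algebra.adjoin ℝ (h : Set (V →L[ℝ] V))

lemma tr_add (a b : V →L[ℝ] V) : tr (a + b) = tr a + tr b := by simp [tr]
lemma tr_sub (a b : V →L[ℝ] V) : tr (a - b) = tr a - tr b := by simp [tr]
lemma tr_smul (c : ℝ) (a : V →L[ℝ] V) : tr (c • a) = c * tr a := by simp [tr]
lemma tr_zero : tr (0 : V →L[ℝ] V) = 0 := by simp [tr]
lemma tr_comm [FiniteDimensional ℝ V] (a b : V →L[ℝ] V) : tr (a * b) = tr (b * a) :=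
  LinearMap.trace_mul_comm ℝ (a : V →ₗ[ℝ] V) (b : V →ₗ[ℝ] V)

/-- the kernel `J` of the trace form on a subalgebra -/
def rad (A : Subalgebra ℝ (V →L[ℝ] V)) : Submodule ℝ (V →L[ℝ] V) where
  carrier := {a | a ∈ A ∧ ∀ b ∈ A, tr (a * b) = 0}
  add_mem' := fun {a a'} h h' => ⟨A.add_mem h.1 h'.1, fun b hb => by
    rw [add_mul, tr_add, h.2 b hb, h'.2 b hb, add_zero]⟩
  zero_mem' := ⟨A.zero_mem, fun b _ => by rw [zero_mul, tr_zero]⟩
  smul_mem' := fun c a h => ⟨A.smul_mem h.1 c, fun b hb => by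
    rw [smul_mul_assoc, tr_smul, h.2 b hb, mul_zero]⟩

/-- `N` is invariant under the set `S` -/
def Inv (S : Set (V →L[ℝ] V)) (N : Submodule ℝ V) : Prop := ∀ a ∈ S, ∀ v ∈ N, a v ∈ N

/-- `S · N`, the span of the `a v` -/
def act (S : Set (V →L[ℝ] V)) (N : Submodule ℝ V) : Submodule ℝ V :=
  Submodule.span ℝ {w | ∃ a ∈ S, ∃ v ∈ N, a v = w}

/-- `A · p · N` -/
def gen (A : Subalgebra ℝ (V →L[ℝ] V)) (p : V →L[ℝ] V) (N : Submodule ℝ V) : Submodule ℝ V :=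
  act A (N.map (p : V →ₗ[ℝ] V))

/-- `J^k · V` -/
def pw (J : Submodule ℝ (V →L[ℝ] V)) : ℕ → Submodule ℝ V
  | 0 => ⊤
  | k + 1 => act J (pw J k)

/-- the data at a periodic point: `D ∈ h` is diagonalisable with real nonzero eigenvalues, `p` is
the projector on its positive part along the negative part, and `tr (p [X,Y]) = 0` on `h` -/
structure Hyp (h : Submodule ℝ (V →L[ℝ] V)) (D p : V →L[ℝ] V) : Prop where
  lie : IsLie h
  mem : D ∈ h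
  diag : ∃ (ι : Type) (_ : Fintype ι) (b : Basis ι ℝ V) (r : ι → ℝ), ∀ i, D (b i) = r i • b i ∧
    ((0 < r i ∧ p (b i) = b i) ∨ (r i < 0 ∧ p (b i) = 0))
  tr0 : ∀ X ∈ h, ∀ Y ∈ h, tr (p * (X * Y - Y * X)) = 0

/-- the trilinear form `t`, read on `N₁ × N₂ × N₃`, is killed by `X` -/
def TInv (t : V →L[ℝ] V →L[ℝ] V →L[ℝ] ℝ) (N₁ N₂ N₃ : Submodule ℝ V) (X : V →L[ℝ] V) : Prop :=
  ∀ u ∈ N₁, ∀ v ∈ N₂, ∀ w ∈ N₃, t (X u) v w + t u (X v) w + t u v (X w) = 0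

end Defs

/-- `J` is a nilpotent two-sided ideal of `A` -/
def JS : Prop := ∀ (V : Type) [NormedAddCommGroup V] [NormedSpace ℝ V] [FiniteDimensional ℝ V]
  (A : Subalgebra ℝ (V →L[ℝ] V)),
  (∀ a ∈ A, ∀ j ∈ rad A, a * j ∈ rad A ∧ j * a ∈ rad A) ∧ pw (rad A) (finrank ℝ V) = ⊥

/-- `A p N = A e^n N` when `p` is an idempotent of `A` and `e ≡ p` modulo `J` -/
def MS : Prop := ∀ (V : Type) [NormedAddCommGroup V] [NormedSpace ℝ V] [FiniteDimensional ℝ V]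
  (A : Subalgebra ℝ (V →L[ℝ] V)) (p e : V →L[ℝ] V) (N : Submodule ℝ V),
  p ∈ A → p * p = p → e - p ∈ rad A → Inv A N →
  gen A p N = gen A (e ^ (finrank ℝ V + 1)) N

/-- purity: `p` lies in the envelope and is central modulo `J` -/
def PurS : Prop := ∀ (V : Type) [NormedAddCommGroup V] [NormedSpace ℝ V] [FiniteDimensional ℝ V]
  (h : Submodule ℝ (V →L[ℝ] V)) (D p : V →L[ℝ] V), Hyp h D p →
  p ∈ env h ∧ ∀ a ∈ env h, p * a - a * p ∈ rad (env h)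

/-- lemma Y: the slowest part of `Yu ⊕ Ys` kills the invariant trilinear forms -/
def LYS : Prop := ∀ (V : Type) [NormedAddCommGroup V] [NormedSpace ℝ V] [FiniteDimensional ℝ V]
  (h : Submodule ℝ (V →L[ℝ] V)) (D p : V →L[ℝ] V) (Yu Ys N₁ N₂ : Submodule ℝ V)
  (t₁ t₂ : V →L[ℝ] V →L[ℝ] V →L[ℝ] ℝ), Hyp h D p →
  Inv h Yu → Inv h Ys → Inv h N₁ → Inv h N₂ → Yu ≠ ⊥ → Ys ≠ ⊥ →
  (∀ u ∈ Yu, p u = u) → (∀ w ∈ Ys, p w = 0) →
  (∀ j ∈ rad (env h), (∀ u ∈ Yu, j u = 0) ∧ ∀ w ∈ Ys, j w = 0) →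
  (∀ X ∈ h, TInv t₁ Yu N₁ Ys X ∧ TInv t₂ Yu N₂ Ys X) →
  (∃ u ∈ Yu, u ≠ 0 ∧ (∀ v ∈ gen (env h) (1 - p) N₁, ∀ w ∈ Ys, t₁ u v w = 0) ∧
      ∀ v ∈ gen (env h) (1 - p) N₂, ∀ w ∈ Ys, t₂ u v w = 0) ∨
  (∃ w ∈ Ys, w ≠ 0 ∧ (∀ u ∈ Yu, ∀ v ∈ gen (env h) p N₁, t₁ u v w = 0) ∧
      ∀ u ∈ Yu, ∀ v ∈ gen (env h) p N₂, t₂ u v w = 0)

/-- a continuous idempotent of a smooth family of algebras, central modulo the smooth family `J`,
has a smooth representative modulo `J` (`pA`, `pJ` are smooth projectors on `A`, `J`) -/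
def ES : Prop := ∀ (P V : Type) [NormedAddCommGroup P] [NormedSpace ℝ P] [FiniteDimensional ℝ P]
  [NormedAddCommGroup V] [NormedSpace ℝ V] [FiniteDimensional ℝ V]
  (A : P → Subalgebra ℝ (V →L[ℝ] V)) (p : P → V →L[ℝ] V)
  (pA pJ : P → (V →L[ℝ] V) →L[ℝ] (V →L[ℝ] V)) (z₀ : P),
  ContDiffAt ℝ ∞ pA z₀ → ContDiffAt ℝ ∞ pJ z₀ → ContinuousAt p z₀ →
  (∀ᶠ z in 𝓝 z₀, (∀ a, pA z a ∈ A z) ∧ (∀ a ∈ A z, pA z a = a) ∧
    (∀ a, pJ z a ∈ rad (A z)) ∧ (∀ a ∈ rad (A z), pJ z a = a) ∧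
    p z ∈ A z ∧ p z * p z = p z ∧ ∀ a ∈ A z, p z * a - a * p z ∈ rad (A z)) →
  ContDiffAt ℝ ∞ (fun z => p z - pJ z (p z)) z₀

end Crest.Agent.N221.Hu
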