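import Crest.Agent.N221.Hu.SB
import Crest.Agent.N221.Hu.Alg

/-!
Row 221, block Hu: operations on `C^n` families of subspaces (sums, intersections, images,
annihilators, envelope, radical, stabilisers), sections, closed conditions.
-/

set_option autoImplicit false
set_option linter.unusedSectionVars false
set_option linter.unusedVariables false
set_option maxSynthPendingDepth 3

open Set Filter Topology Module
open scoped ContDiff

noncomputable section

namespace Crest.Agent.N221.SB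

open Hu

variable {P W W' W'' X : Type} [NormedAddCommGroup P] [NormedSpace ℝ P]
  [NormedAddCommGroup W] [NormedSpace ℝ W] [FiniteDimensional ℝ W]
  [NormedAddCommGroup W'] [NormedSpace ℝ W'] [FiniteDimensional ℝ W']
  [NormedAddCommGroup W''] [NormedSpace ℝ W''] [FiniteDimensional ℝ W'']
  [NormedAddCommGroup X] [NormedSpace ℝ X] [FiniteDimensional ℝ X]
  {n : WithTop ℕ∞} {F G : P → Submodule ℝ W} {F' : P → Submodule ℝ W'}
  {F'' : P → Submodule ℝ W''} {U : Set P} {z : P}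

/-- postcomposition with a smooth map -/
lemma Cn.post {E E' : Type} [NormedAddCommGroup E] [NormedSpace ℝ E] [NormedAddCommGroup E']
    [NormedSpace ℝ E'] {f : P → E} (h : Cn n f z) {g : E → E'} (hg : ContDiff ℝ n g) :
    Cn n (fun y => g (f y)) z := h.mono fun y a => hg.contDiffAt.comp y a

lemma Cn.prodMk {E E' : Type} [NormedAddCommGroup E] [NormedSpace ℝ E] [NormedAddCommGroup E']
    [NormedSpace ℝ E'] {f : P → E} {g : P → E'} (h : Cn n f z) (h' : Cn n g z) :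
    Cn n (fun y => (f y, g y)) z := (h.and h').mono fun y a => a.1.prodMk a.2

lemma Cn.comp {A : P → W' →L[ℝ] W''} {B : P → W →L[ℝ] W'} (h : Cn n A z) (h' : Cn n B z) :
    Cn n (fun y => A y ∘L B y) z := (h.and h').mono fun y a => a.1.clm_comp a.2

lemma Cn.apply {A : P → W →L[ℝ] W'} {s : P → W} (h : Cn n A z) (h' : Cn n s z) :
    Cn n (fun y => A y (s y)) z := (h.and h').mono fun y a => a.1.clm_apply a.2

lemma Cn.one_sub {A : P → W →L[ℝ] W} (h : Cn n A z) : Cn n (fun y => 1 - A y) z :=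
  h.mono fun y a => contDiffAt_const.sub a

/-- a family of linear maps is `C^n` when its values are -/
lemma Cn.of_apply {A : P → W →L[ℝ] W'} (h : ∀ w, Cn n (fun y => A y w) z) : Cn n A z := by
  let b := finBasis ℝ W
  have e : ∀ y, A y = ∑ i, (b.coord i).toContinuousLinearMap.smulRight (A y (b i)) := fun y => by
    ext w
    conv_lhs => rw [← b.sum_repr w, map_sum]
    simp
  filter_upwards [eventually_all.2 fun i => h (b i)] with y a
  rw [funext e]
  exact ContDiffAt.sum fun i _ => contDiffAt_const.smulRight (a i)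

lemma Cn.flip {A : P → W →L[ℝ] W' →L[ℝ] W''} (h : Cn n A z) : Cn n (fun y => (A y).flip) z :=
  Cn.of_apply fun v => Cn.of_apply fun w => (h.apply (Cn.const w)).apply (Cn.const v)

/-- a trilinear family is `C^n` when its values are -/
lemma Cn.of_apply₃ {μ : P → W →L[ℝ] W' →L[ℝ] W'' →L[ℝ] X}
    (h : ∀ w v v', Cn n (fun y => μ y w v v') z) : Cn n μ z :=
  Cn.of_apply fun w => Cn.of_apply fun v => Cn.of_apply fun v' => h w v v'

lemma Cn.prod {A : P → W →L[ℝ] W'} {B : P → W →L[ℝ] W''} (h : Cn n A z) (h' : Cn n B z) :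
    Cn n (fun y => (A y).prod (B y)) z :=
  Cn.of_apply fun w => (h.apply (Cn.const w)).prodMk (h'.apply (Cn.const w))

lemma Cn.coprod {A : P → W' →L[ℝ] W} {B : P → W'' →L[ℝ] W} (h : Cn n A z) (h' : Cn n B z) :
    Cn n (fun y => (A y).coprod (B y)) z :=
  Cn.of_apply fun w => ((h.apply (Cn.const w.1)).and (h'.apply (Cn.const w.2))).mono
    fun y a => a.1.add a.2

/-- change of the base -/
lemma SmAt.pull {Q : Type} [NormedAddCommGroup Q] [NormedSpace ℝ Q] {φ : Q → P} {x : Q}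
    (h : SmAt n F (φ x)) (hφ : Cn n φ x) : SmAt n (fun y => F (φ y)) x := by
  obtain ⟨p, h1, h2⟩ := h
  refine ⟨fun y => p (φ y), ?_, hφ.cont.eventually h2⟩
  filter_upwards [hφ, hφ.cont.eventually h1] with y a b using b.comp y a

lemma Gen.sup (h : Gen n F z) (h' : Gen n G z) : Gen n (fun y => F y ⊔ G y) z := by
  obtain ⟨k, A, h1, h2⟩ := h
  obtain ⟨k', A', h1', h2'⟩ := h'
  refine (Gen.range (h1.coprod h1')).congr ?_
  filter_upwards [h2, h2'] with y a b
  rw [a, b, ContinuousLinearMap.range_coprod]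

lemma Cut.inf (h : Cut n F z) (h' : Cut n G z) : Cut n (fun y => F y ⊓ G y) z := by
  obtain ⟨k, A, h1, h2⟩ := h
  obtain ⟨k', A', h1', h2'⟩ := h'
  refine (Cut.ker (h1.prod h1')).congr ?_
  filter_upwards [h2, h2'] with y a b
  rw [a, b, ContinuousLinearMap.ker_prod]

lemma Gen.map (h : Gen n F z) {B : P → W →L[ℝ] W'} (hB : Cn n B z) :
    Gen n (fun y => (F y).map (B y : W →ₗ[ℝ] W')) z := by
  obtain ⟨k, A, h1, h2⟩ := h
  refine (Gen.range (hB.comp h1)).congr (h2.mono fun y a => ?_)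
  rw [a, ← LinearMap.range_comp]; rfl

lemma Cut.comap (h : Cut n F' z) {B : P → W →L[ℝ] W'} (hB : Cn n B z) :
    Cut n (fun y => (F' y).comap (B y : W →ₗ[ℝ] W')) z := by
  obtain ⟨k, A, h1, h2⟩ := h
  refine (Cut.ker (h1.comp hB)).congr (h2.mono fun y a => ?_)
  rw [a, ← LinearMap.ker_comp]; rfl

/-- the image under an invertible family -/
lemma SmAt.map_unit (h : SmAt n F z) {g : P → W →L[ℝ] W} (hg : Cn n g z) (hz : IsUnit (g z)) :
    SmAt n (fun y => (F y).map (g y : W →ₗ[ℝ] W)) z := by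
  refine (h.gen.map hg).smAt ?_
  filter_upwards [h.rank, (inv hg hz).2] with y a b
  rw [finrank_map_unit b, finrank_map_unit hz, a]

/-- spans of finite families of sections -/
lemma Gen.span {ι : Type} [Finite ι] {s : ι → P → W} (h : ∀ i, Cn n (s i) z) :
    Gen n (fun y => Submodule.span ℝ (Set.range fun i => s i y)) z := by
  classical
  have := Fintype.ofFinite ι
  let A : P → (ι → ℝ) →L[ℝ] W := fun y =>
    ∑ i, (ContinuousLinearMap.proj (R := ℝ) (φ := fun _ : ι => ℝ) i).smulRight (s i y)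
  refine (Gen.range (A := A) ?_).congr (Eventually.of_forall fun y => ?_)
  · filter_upwards [eventually_all.2 h] with y a
    exact ContDiffAt.sum fun i _ => contDiffAt_const.smulRight (a i)
  · ext w
    simp [A, Submodule.mem_span_range_iff_exists_fun]

lemma Gen.exists_span (h : Gen n F z) : ∃ (k : ℕ) (s : Fin k → P → W), (∀ i, Cn n (s i) z) ∧
    ∀ᶠ y in 𝓝 z, F y = Submodule.span ℝ (Set.range fun i => s i y) := by
  obtain ⟨k, A, h1, h2⟩ := h
  refine ⟨k, fun i y => A y (Pi.basisFun ℝ _ i), fun i => h1.apply (Cn.const _),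
    h2.mono fun y a => ?_⟩
  rw [a, LinearMap.range_eq_map, ← (Pi.basisFun ℝ (Fin k)).span_eq, Submodule.map_span,
    ← Set.range_comp]
  rfl

/-- the span of the values of a bilinear family -/
lemma Gen.bil (h : Gen n F z) (h' : Gen n F' z) {μ : P → W →L[ℝ] W' →L[ℝ] W''} (hμ : Cn n μ z) :
    Gen n (fun y => Submodule.span ℝ {w | ∃ a ∈ F y, ∃ v ∈ F' y, μ y a v = w}) z := by
  obtain ⟨k, s, h1, h2⟩ := h.exists_span
  obtain ⟨k', s', h1', h2'⟩ := h'.exists_span
  refine (Gen.span (s := fun (i : Fin k × Fin k') y => μ y (s i.1 y) (s' i.2 y)) fun i =>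
    (hμ.apply (h1 _)).apply (h1' _)).congr ?_
  filter_upwards [h2, h2'] with y a b
  refine le_antisymm (Submodule.span_le.2 ?_) (Submodule.span_mono ?_)
  · rintro _ ⟨u, hu, v, hv, rfl⟩
    rw [a, Submodule.mem_span_range_iff_exists_fun] at hu
    rw [b, Submodule.mem_span_range_iff_exists_fun] at hv
    obtain ⟨c, rfl⟩ := hu
    obtain ⟨c', rfl⟩ := hv
    simp only [map_sum, map_smul, FunLike.coe_sum, Finset.sum_apply,
      FunLike.coe_smul, Pi.smul_apply]
    exact sum_mem fun j _ => Submodule.smul_mem _ _ (sum_mem fun i _ => Submodule.smul_mem _ _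
      (Submodule.subset_span ⟨(i, j), rfl⟩))
  · rintro _ ⟨i, rfl⟩
    exact ⟨_, a ▸ Submodule.subset_span ⟨i.1, rfl⟩, _, b ▸ Submodule.subset_span ⟨i.2, rfl⟩, rfl⟩

/-- `{w | ∀ v ∈ F', μ w v = 0}` -/
lemma Cut.ann (h : Gen n F' z) {μ : P → W →L[ℝ] W' →L[ℝ] W''} (hμ : Cn n μ z)
    (e : ∀ᶠ y in 𝓝 z, ∀ w, w ∈ F y ↔ ∀ v ∈ F' y, μ y w v = 0) : Cut n F z := by
  obtain ⟨k, A, h1, h2⟩ := h
  refine (Cut.ker (A := fun y => ((μ y).flip ∘L A y).flip) (hμ.flip.comp h1).flip).congr ?_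
  filter_upwards [h2, e] with y a b
  ext w
  rw [b, a, LinearMap.mem_ker]
  refine ⟨fun h => ContinuousLinearMap.ext fun c => h _ ⟨c, rfl⟩, ?_⟩
  rintro h _ ⟨c, rfl⟩
  exact congrArg (fun f : _ →L[ℝ] W'' => f c) h

/-- `{w | ∀ v ∈ F', μ w v ∈ F''}`, e.g. the stabiliser of `F'` in a representation -/
lemma Cut.trans (h : Gen n F' z) (h' : Cut n F'' z) {μ : P → W →L[ℝ] W' →L[ℝ] W''} (hμ : Cn n μ z)
    (e : ∀ᶠ y in 𝓝 z, ∀ w, w ∈ F y ↔ ∀ v ∈ F' y, μ y w v ∈ F'' y) : Cut n F z := by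
  obtain ⟨k, A, h1, h2⟩ := h'
  refine Cut.ann h (μ := fun y => ContinuousLinearMap.compL ℝ W' W'' _ (A y) ∘L μ y)
    ((( Cn.const _).apply h1).comp hμ) ?_
  filter_upwards [h2, e] with y a b w
  rw [b, a]; rfl

/-- `{w | ∀ v ∈ F', ∀ v' ∈ F'', μ w v v' = 0}` -/
lemma Cut.ann₂ (h : Gen n F' z) (h' : Gen n F'' z) {μ : P → W →L[ℝ] W' →L[ℝ] W'' →L[ℝ] X}
    (hμ : ∀ w v v', Cn n (fun y => μ y w v v') z)
    (e : ∀ᶠ y in 𝓝 z, ∀ w, w ∈ F y ↔ ∀ v ∈ F' y, ∀ v' ∈ F'' y, μ y w v v' = 0) : Cut n F z := by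
  let K : P → Submodule ℝ (W'' →L[ℝ] X) := fun y =>
    ⨅ v : F'' y, (ContinuousLinearMap.apply ℝ X (v : W'')).ker
  have hK : ∀ y a, a ∈ K y ↔ ∀ v ∈ F'' y, a v = 0 := fun y a => by simp [K]
  refine Cut.trans h (F'' := K) (Cut.ann h' (μ := fun _ => ContinuousLinearMap.id ℝ _)
    (Cn.const _) (Eventually.of_forall hK)) (Cn.of_apply₃ hμ) (e.mono fun y a w => ?_)
  simp only [a, hK]

/-- sections through a given vector -/
lemma SmAt.sec (h : SmAt n F z) {w : W} (hw : w ∈ F z) :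
    ∃ s : P → W, Cn n s z ∧ s z = w ∧ ∀ᶠ y in 𝓝 z, s y ∈ F y := by
  obtain ⟨p, h1, h2⟩ := h
  exact ⟨fun y => p y w, h1.apply (Cn.const w), h2.self_of_nhds.2 w hw, h2.mono fun y a => a.1 w⟩

/-- local trivialisation -/
lemma SmAt.triv (h : SmAt n F z) : ∃ g : P → W →L[ℝ] W, Cn n g z ∧ g z = 1 ∧
    ∀ᶠ y in 𝓝 z, IsUnit (g y) ∧ F y = (F z).map (g y : W →ₗ[ℝ] W) := by
  have hr := h.rank
  obtain ⟨p, h1, h2⟩ := h
  have h0 := h2.self_of_nhds
  have hg : Cn n (fun y => p y ∘L p z + (1 - p z)) z :=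
    (h1.comp (Cn.const (p z))).mono fun y a => a.add contDiffAt_const
  have e : p z ∘L p z + (1 - p z) = 1 := by ext w; simp [h0.idem]
  refine ⟨_, hg, e, ?_⟩
  filter_upwards [hr, h2, (inv hg (by simp only [e]; exact isUnit_one)).2] with y a b c
  refine ⟨c, (Submodule.eq_of_le_of_finrank_le ?_ (by rw [finrank_map_unit c, a])).symm⟩
  rintro _ ⟨w, hw, rfl⟩
  simpa [h0.2 w hw] using b.1 w

/-- an injective frame -/
lemma SmAt.frame (h : SmAt n F z) : ∃ e : P → (Fin (finrank ℝ (F z)) → ℝ) →L[ℝ] W, Cn n e z ∧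
    ∀ᶠ y in 𝓝 z, Function.Injective (e y) ∧ (e y).range = F y := by
  obtain ⟨g, h1, -, h2⟩ := h.triv
  let b := (finBasis ℝ (F z)).equivFunL
  refine ⟨fun y => g y ∘L (F z).subtypeL ∘L (b.symm : _ →L[ℝ] F z), h1.comp (Cn.const _),
    h2.mono fun y a => ⟨fun c c' e => ?_, ?_⟩⟩
  · have := congrArg (fun w => Ring.inverse (g y) w) e
    simpa [inv_apply a.1] using this
  · rw [a.2]
    refine le_antisymm ?_ ?_
    · rintro _ ⟨c, rfl⟩
      exact ⟨_, (b.symm c).2, rfl⟩
    · rintro _ ⟨w, hw, rfl⟩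
      exact ⟨b ⟨w, hw⟩, by simp⟩

/-- membership is a closed condition -/
lemma Cut.mem_of_freq (h : Cut n F z) {s : P → W} (hs : ContinuousAt s z)
    (hf : ∃ᶠ y in 𝓝 z, s y ∈ F y) : s z ∈ F z := by
  obtain ⟨k, A, h1, h2⟩ := h
  have h3 : ContinuousAt (fun y => A y (s y)) z := h1.cont.clm_apply hs
  rw [h2.self_of_nhds]
  exact isClosed_singleton.mem_of_frequently_of_tendsto
    ((hf.and_eventually h2).mono fun y a => by simpa [a.2] using a.1) h3

/-- a relation `μ F' ⊆ F` that holds on a dense set holds everywhere -/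
lemma Cut.map_mem_of_freq (h : Cut n F z) (h' : SmAt n F' z) {μ : P → W' →L[ℝ] W}
    (hμ : ContinuousAt μ z) (hf : ∃ᶠ y in 𝓝 z, ∀ v ∈ F' y, μ y v ∈ F y) :
    ∀ v ∈ F' z, μ z v ∈ F z := fun v hv => by
  obtain ⟨s, h1, rfl, h2⟩ := h'.sec hv
  exact h.mem_of_freq (hμ.clm_apply h1.cont) ((hf.and_eventually h2).mono fun y a => a.1 _ a.2)

section Alg
variable {h : P → Submodule ℝ (W →L[ℝ] W)}

lemma Gen.act (hh : Gen n h z) (hF : Gen n F z) : Gen n (fun y => act (h y) (F y)) z :=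
  hh.bil hF (μ := fun _ => ContinuousLinearMap.id ℝ _) (Cn.const _)

lemma Gen.top : Gen n (fun _ : P => (⊤ : Submodule ℝ W)) z := (SmAt.const ⊤).gen

lemma Gen.pw (hh : Gen n h z) : ∀ k, Gen n (fun y => pw (h y) k) z
  | 0 => Gen.top
  | k + 1 => hh.act (hh.pw k)

lemma Gen.gen {A : P → Subalgebra ℝ (W →L[ℝ] W)} (hA : Gen n (fun y => (A y).toSubmodule) z)
    {p : P → W →L[ℝ] W} (hp : Cn n p z) (hF : Gen n F z) :
    Gen n (fun y => gen (A y) (p y) (F y)) z := hA.act (hF.map hp)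

/-- words of length at most `k` -/
def wd (h : Submodule ℝ (W →L[ℝ] W)) : ℕ → Submodule ℝ (W →L[ℝ] W)
  | 0 => Submodule.span ℝ {1}
  | k + 1 => wd h k ⊔ Submodule.span ℝ {w | ∃ a ∈ h, ∃ v ∈ wd h k, a * v = w}

lemma wd_stable (h : Submodule ℝ (W →L[ℝ] W)) (k : ℕ) :
    wd h (k + 1) = wd h k ∨ k + 1 ≤ finrank ℝ (wd h (k + 1)) := by
  induction k with
  | zero =>
    by_cases e : wd h 1 = wd h 0
    · exact Or.inl e
    · exact Or.inr (Nat.succ_le_of_lt ((Nat.zero_le _).trans_lt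
        (Submodule.finrank_lt_finrank_of_lt (lt_of_le_of_ne le_sup_left (Ne.symm e)))))
  | succ k ih =>
    by_cases e : wd h (k + 2) = wd h (k + 1)
    · exact Or.inl e
    · rcases ih with ih | ih
      · exact absurd (by rw [wd, ih]; exact ih) e
      · exact Or.inr (Nat.succ_le_of_lt (ih.trans_lt
          (Submodule.finrank_lt_finrank_of_lt (lt_of_le_of_ne le_sup_left (Ne.symm e)))))

lemma env_eq (h : Submodule ℝ (W →L[ℝ] W)) :
    (env h).toSubmodule = wd h (finrank ℝ (W →L[ℝ] W)) := by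
  set d := finrank ℝ (W →L[ℝ] W)
  have e : wd h (d + 1) = wd h d := (wd_stable h d).resolve_right fun a =>
    absurd (a.trans (Submodule.finrank_le _)) (by omega)
  have h1 : ∀ k, (1 : W →L[ℝ] W) ∈ wd h k := fun k => by
    induction k with
    | zero => exact Submodule.subset_span rfl
    | succ k ih => exact Submodule.mem_sup_left ih
  refine le_antisymm (fun a ha => ?_) ?_
  · have : ∀ v ∈ wd h d, a * v ∈ wd h d := by
      refine Algebra.adjoin_induction (p := fun a _ => ∀ v ∈ wd h d, a * v ∈ wd h d)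
        (fun x hx v hv => ?_) (fun r v hv => ?_) (fun x y _ _ a b v hv => ?_)
        (fun x y _ _ a b v hv => ?_) ha
      · exact e ▸ Submodule.mem_sup_right (Submodule.subset_span ⟨x, hx, v, hv, rfl⟩)
      · rw [← Algebra.smul_def]; exact Submodule.smul_mem _ _ hv
      · rw [add_mul]; exact add_mem (a v hv) (b v hv)
      · rw [mul_assoc]; exact a _ (b v hv)
    simpa using this 1 (h1 d)
  · induction d with
    | zero => exact Submodule.span_le.2 (by rintro _ rfl; exact (env h).one_mem)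
    | succ k ih =>
      refine sup_le ih (Submodule.span_le.2 ?_)
      rintro _ ⟨a, ha, v, hv, rfl⟩
      exact (env h).mul_mem (Algebra.subset_adjoin ha) (ih hv)

lemma Gen.env (hh : Gen n h z) : Gen n (fun y => (env (h y)).toSubmodule) z := by
  have : ∀ k, Gen n (fun y => wd (h y) k) z := fun k => by
    induction k with
    | zero => exact (SmAt.const _).gen
    | succ k ih => exact ih.sup (hh.bil ih (μ := fun _ => ContinuousLinearMap.mul ℝ _) (Cn.const _))
  exact (this _).congr (Eventually.of_forall fun y => env_eq _)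

/-- the trace as a continuous linear form -/
def trL : (W →L[ℝ] W) →L[ℝ] ℝ :=
  LinearMap.toContinuousLinearMap ((LinearMap.trace ℝ W) ∘ₗ ContinuousLinearMap.coeLM ℝ)

@[simp] lemma trL_apply (a : W →L[ℝ] W) : trL a = tr a := rfl

lemma Cut.rad {A : P → Subalgebra ℝ (W →L[ℝ] W)} (hA : SmAt n (fun y => (A y).toSubmodule) z) :
    Cut n (fun y => rad (A y)) z := by
  let K : P → Submodule ℝ (W →L[ℝ] W) := fun y =>
    ⨅ v : A y, (trL ∘L (ContinuousLinearMap.mul ℝ _).flip (v : W →L[ℝ] W)).ker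
  have hK : ∀ y a, a ∈ K y ↔ ∀ v ∈ (A y).toSubmodule, tr (a * v) = 0 := fun y a => by simp [K]
  refine (hA.cut.inf (Cut.ann (F := K) hA.gen (μ := fun _ =>
    ContinuousLinearMap.compL ℝ _ _ ℝ (trL (W := W)) ∘L ContinuousLinearMap.mul ℝ (W →L[ℝ] W)) (Cn.const _)
    (Eventually.of_forall hK))).congr (Eventually.of_forall fun y => ?_)
  ext a
  rw [Submodule.mem_inf, hK]
  rfl

/-- the stabiliser of a family of subspaces -/
lemma Cut.stab (hF : SmAt n F z) (e : ∀ᶠ y in 𝓝 z, ∀ a, a ∈ h y ↔ ∀ v ∈ F y, a v ∈ F y) :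
    Cut n h z := Cut.trans hF.gen hF.cut (μ := fun _ => ContinuousLinearMap.id ℝ _) (Cn.const _) e

/-- the stabiliser of a trilinear form on `F₁ × F₂ × F₃` -/
lemma Cut.tinv {F₁ F₂ F₃ : P → Submodule ℝ W} (h₁ : Gen n F₁ z) (h₂ : Gen n F₂ z) (h₃ : Gen n F₃ z)
    {t : P → W →L[ℝ] W →L[ℝ] W →L[ℝ] ℝ} (ht : ∀ u v w, Cn n (fun y => t y u v w) z)
    (e : ∀ᶠ y in 𝓝 z, ∀ a, a ∈ h y ↔ TInv (t y) (F₁ y) (F₂ y) (F₃ y) a) : Cut n h z := by
  obtain ⟨k₁, s₁, a₁, b₁⟩ := h₁.exists_span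
  obtain ⟨k₂, s₂, a₂, b₂⟩ := h₂.exists_span
  obtain ⟨k₃, s₃, a₃, b₃⟩ := h₃.exists_span
  let ap : W → (W →L[ℝ] W) →L[ℝ] W := fun v => ContinuousLinearMap.apply ℝ W v
  let A : P → (W →L[ℝ] W) →L[ℝ] (Fin k₁ × Fin k₂ × Fin k₃ → ℝ) := fun y =>
    ContinuousLinearMap.pi fun i =>
      ((t y).flip (s₂ i.2.1 y)).flip (s₃ i.2.2 y) ∘L ap (s₁ i.1 y) +
      (t y (s₁ i.1 y)).flip (s₃ i.2.2 y) ∘L ap (s₂ i.2.1 y) +
      t y (s₁ i.1 y) (s₂ i.2.1 y) ∘L ap (s₃ i.2.2 y)
  have hA : ∀ y a i, A y a i = t y (a (s₁ i.1 y)) (s₂ i.2.1 y) (s₃ i.2.2 y) +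
      t y (s₁ i.1 y) (a (s₂ i.2.1 y)) (s₃ i.2.2 y) +
      t y (s₁ i.1 y) (s₂ i.2.1 y) (a (s₃ i.2.2 y)) := fun _ _ _ => rfl
  refine (Cut.ker (A := A) (Cn.of_apply fun a => ?_)).congr ?_
  · filter_upwards [Cn.of_apply₃ ht, eventually_all.2 a₁, eventually_all.2 a₂, eventually_all.2 a₃] with
      y c c₁ c₂ c₃
    refine contDiffAt_pi.2 fun i => ?_
    simp only [hA]
    exact ((((c.clm_apply (contDiffAt_const.clm_apply (c₁ _))).clm_apply (c₂ _)).clm_apply
      (c₃ _)).add (((c.clm_apply (c₁ _)).clm_apply (contDiffAt_const.clm_apply (c₂ _))).clm_apply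
      (c₃ _))).add (((c.clm_apply (c₁ _)).clm_apply (c₂ _)).clm_apply
      (contDiffAt_const.clm_apply (c₃ _)))
  · filter_upwards [e, b₁, b₂, b₃] with y c c₁ c₂ c₃
    ext a
    rw [c, LinearMap.mem_ker, c₁, c₂, c₃]
    refine ⟨fun h => funext fun i => h _ (Submodule.subset_span ⟨_, rfl⟩) _
      (Submodule.subset_span ⟨_, rfl⟩) _ (Submodule.subset_span ⟨_, rfl⟩), fun h u hu v hv w hw => ?_⟩
    induction hu using Submodule.span_induction with
    | zero => simp
    | add x x' _ _ p q => simp only [map_add, add_apply]; linarith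
    | smul r x _ p => simp only [map_smul, smul_apply, smul_eq_mul]; grind
    | mem u hu =>
      induction hv using Submodule.span_induction with
      | zero => simp
      | add x x' _ _ p q => simp only [map_add, add_apply]; linarith
      | smul r x _ p => simp only [map_smul, smul_apply, smul_eq_mul]; grind
      | mem v hv =>
        induction hw using Submodule.span_induction with
        | zero => simp
        | add x x' _ _ p q => simp only [map_add]; linarith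
        | smul r x _ p => simp only [map_smul, smul_eq_mul]; grind
        | mem w hw =>
          obtain ⟨i, rfl⟩ := hu
          obtain ⟨j, rfl⟩ := hv
          obtain ⟨l, rfl⟩ := hw
          exact congrFun h (i, j, l)

end Alg

end Crest.Agent.N221.SB
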