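import Crest.Agent.N221.Hu.Pur2
import Crest.Agent.N221.Hu.Alg

/-! Row 221, A1: purity `PurS` and lemma Y `LYS`. -/
open Module Polynomial
set_option linter.unusedSectionVars false
namespace Crest.Agent.N221.Pur
section
variable {E : Type*} [AddCommGroup E] [Module ℝ E] [FiniteDimensional ℝ E]
  {h : Set (End ℝ E)} {R p : End ℝ E}

/-- `R` acts on each irreducible subquotient by a scalar whose sign gives the type. -/
def Pu (h : Set (End ℝ E)) (R p : End ℝ E) : Prop := ∀ M₀ M₁, Irr h M₀ M₁ → ∃ c : ℝ,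
  To (R - c • 1) M₁ M₀ ∧ ((0 < c ∧ To (1 - p) M₁ M₀) ∨ (c < 0 ∧ To p M₁ M₀))

lemma Pu.neg (H : Pu h R p) : Pu h (-R) (1 - p) := fun A B hi => by
  obtain ⟨c, a, b⟩ := H A B hi
  refine ⟨-c, fun v hv => ?_, b.symm.imp (fun b => ⟨by linarith [b.1], by simpa using b.2⟩)
    fun b => ⟨by linarith [b.1], b.2⟩⟩
  convert A.neg_mem (a v hv) using 1
  simp; abel

lemma Pu.typ (H : Pu h R p) (hp : ∀ M, Inv h M → To p M M) (pi : IsIdempotentElem p) {c : ℝ}
    (c0 : 0 ≤ c) {A B} (hA : Inv h A) (hB : Inv h B) (le : A ≤ B) :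
    To (R - c • 1) B A → To (1 - p) B A := by
  refine ind (h := h) (P := fun A B => To (R - c • 1) B A → To (1 - p) B A)
    (fun M hM _ v hv => M.sub_mem hv (hp M hM v hv)) (fun A B hi hc => ?_)
    (fun A B C _ _ _ a b x y hc v hv => ?_) hA hB le
  · obtain ⟨c', a, b⟩ := H A B hi
    refine b.elim (fun b => b.2) fun b => absurd (fun v hv => ?_) hi.lt.2
    have := A.sub_mem (a v hv) (hc v hv)
    have e : (R - c' • 1) v - (R - c • 1) v = (c - c') • v := by simp [sub_smul]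
    rw [e] at this
    exact (A.smul_mem_iff (by linarith [b.1])).1 this
  · have := x (fun w hw => hc w (b hw)) _ (y (fun w hw => a (hc w hw)) v hv)
    rwa [← End.mul_apply, pi.one_sub.eq] at this

lemma eig {S : End ℝ E} {A B : Submodule ℝ E} (lt : A < B) (hS : To S B A) :
    ∃ v ∈ B, v ≠ 0 ∧ S v = 0 := by
  by_contra hn
  push Not at hn
  have inj : Function.Injective (S.restrict (p := B) (q := A) hS) :=
    (injective_iff_map_eq_zero _).2 fun v hv => by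
      by_contra h0
      exact hn v v.2 (fun e => h0 (Subtype.ext e)) (congrArg Subtype.val hv)
  exact absurd (LinearMap.finrank_le_finrank_of_injective inj)
    (not_le.2 (Submodule.finrank_lt_finrank_of_lt lt))

lemma Pu.half (H : Pu h R p) (hR : R ∈ h) (hp : ∀ M, Inv h M → To p M M) (pi : IsIdempotentElem p)
    {K N Y : Submodule ℝ E} (hK : Inv h K) (hN : Inv h N) (hY : Inv h Y) {a : ℝ}
    (ha : ∀ u ∈ K, R u = a • u) (hm : ∀ c, ∀ w ∈ Y, w ≠ 0 → R w = c • w → a ≤ |c|)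
    (pY : ∀ w ∈ Y, p w = 0) (gn : ∀ M, Inv h M → To (1 - p) N M → N ≤ M)
    (t : E → E → E → ℝ) (l1 : ∀ v w, IsLinearMap ℝ fun u => t u v w)
    (l2 : ∀ u w, IsLinearMap ℝ fun v => t u v w) (l3 : ∀ u v, IsLinearMap ℝ fun w => t u v w)
    (ti : ∀ X ∈ h, ∀ u ∈ K, ∀ v ∈ N, ∀ w ∈ Y, t (X u) v w + t u (X v) w + t u v (X w) = 0) :
    ∀ u ∈ K, ∀ v ∈ N, ∀ w ∈ Y, t u v w = 0 := by
  refine ind (h := h) (P := fun A B => B ≤ Y → (∀ u ∈ K, ∀ v ∈ N, ∀ w ∈ A, t u v w = 0) →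
    ∀ u ∈ K, ∀ v ∈ N, ∀ w ∈ B, t u v w = 0) (fun _ _ _ x => x) (fun A B hi le h0 => ?_)
    (fun A B C _ _ _ _ b x y le h0 => y le (x (b.trans le) h0)) (inv_bot h) hY bot_le le_rfl
    fun u _ v _ w hw => by rw [(Submodule.mem_bot ℝ).1 hw]; exact (l3 u v).map_zero
  obtain ⟨c, hc, ty⟩ := H A B hi
  have c0 : c < 0 := ty.elim (fun b => absurd (fun w hw => by
    simpa [pY w (le hw)] using b.2 w hw) hi.lt.2) fun b => b.1
  obtain ⟨w₀, w1, w2, w3⟩ := eig hi.lt hc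
  have ac := hm c w₀ (le w1) w2 (by simpa [sub_eq_zero] using w3)
  rw [abs_of_neg c0] at ac
  let M : Submodule ℝ E :=
    { carrier := {v | v ∈ N ∧ ∀ u ∈ K, ∀ w ∈ B, t u v w = 0}
      add_mem' := fun x y => ⟨N.add_mem x.1 y.1, fun u hu w hw => by
        rw [(l2 u w).map_add, x.2 u hu w hw, y.2 u hu w hw, add_zero]⟩
      zero_mem' := ⟨N.zero_mem, fun u _ w _ => (l2 u w).map_zero⟩
      smul_mem' := fun s _ x => ⟨N.smul_mem s x.1, fun u hu w hw => by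
        rw [(l2 u w).map_smul, x.2 u hu w hw, smul_zero]⟩ }
  have hM : Inv h M := fun X hX v hv => ⟨hN X hX v hv.1, fun u hu w hw => by
    have := ti X hX u hu v hv.1 w (le hw)
    rwa [hv.2 _ (hK X hX u hu) w hw, hv.2 u hu _ (hi.i1 X hX w hw), zero_add, add_zero] at this⟩
  have := gn M hM (H.typ hp pi (c := -c - a) (by linarith) hM hN (fun v hv => hv.1) fun v hv =>
    ⟨N.sub_mem (hN R hR v hv) (N.smul_mem _ hv), fun u hu w hw => ?_⟩)
  · exact fun u hu v hv w hw => (this hv).2 u hu w hw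
  have e1 := ti R hR u hu v hv w (le hw)
  have e2 := h0 u hu v hv _ (hc w hw)
  have e3 : (R - c • 1) w = R w - c • w := rfl
  have e4 : (R - (-c - a) • 1) v = R v - (-c - a) • v := rfl
  rw [e3, (l3 u v).map_sub, (l3 u v).map_smul, smul_eq_mul] at e2
  rw [ha u hu, (l1 v w).map_smul, smul_eq_mul] at e1
  rw [e4, (l2 u w).map_sub, (l2 u w).map_smul, smul_eq_mul]
  linarith

end

open Hu
variable {V : Type} [NormedAddCommGroup V] [NormedSpace ℝ V] [FiniteDimensional ℝ V]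
  {h : Submodule ℝ (V →L[ℝ] V)} {D p : V →L[ℝ] V}

/-- `h` read in `End V`. -/
def hE (h : Submodule ℝ (V →L[ℝ] V)) : Submodule ℝ (End ℝ V) :=
  h.map (ContinuousLinearMap.coeLM ℝ)

lemma inv_iff {M : Submodule ℝ V} : Inv (hE h : Set (End ℝ V)) M ↔ Hu.Inv h M :=
  ⟨fun H a ha => H a ⟨a, ha, rfl⟩, by rintro H _ ⟨a, ha, rfl⟩; exact H a ha⟩

lemma env_inv {M : Submodule ℝ V} (hM : Hu.Inv h M) : Hu.Inv (env h) M := fun a ha => by
  induction ha using Algebra.adjoin_induction with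
  | mem x hx => exact hM x hx
  | algebraMap c => exact fun v hv => M.smul_mem c hv
  | add x y _ _ hx hy => exact fun v hv => M.add_mem (hx v hv) (hy v hv)
  | mul x y _ _ hx hy => exact fun v hv => hx _ (hy v hv)

lemma mem_rad {a : V →L[ℝ] V} (ha : a ∈ env h)
    (H : ∀ A B, Irr (hE h : Set (End ℝ V)) A B → ∀ v ∈ B, a v ∈ A) : a ∈ rad (env h) :=
  ⟨ha, fun b hb => tr_zero_of_irr (h := (hE h : Set (End ℝ V))) fun A B hi =>
    ⟨⟨env_inv (inv_iff.1 hi.i0) _ (mul_mem ha hb), env_inv (inv_iff.1 hi.i1) _ (mul_mem ha hb)⟩,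
      fun v hv => H A B hi _ (env_inv (inv_iff.1 hi.i1) b hb v hv)⟩⟩

lemma p_mem (H : Hyp h D p) : p ∈ env h := by
  obtain ⟨ι, _, b, r, hd⟩ := H.diag
  obtain ⟨q, hq⟩ := fn (D := (D : End ℝ V)) (fun i => (hd i).1) fun x => if 0 < x then 1 else 0
  have : p = aeval D q := by
    apply ContinuousLinearMap.coe_injective
    have := Polynomial.aeval_algHom_apply (End.toContinuousLinearMap V).symm D q
    refine Eq.trans (b.ext fun i => ?_) this
    refine Eq.trans ?_ (hq i).symm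
    rcases (hd i).2 with h | h
    · simp [h.1, h.2]
    · simp [h.1.le, h.2]
  rw [this]
  exact Algebra.adjoin_le (Set.singleton_subset_iff.2 (Algebra.subset_adjoin H.mem))
    (aeval_mem_adjoin_singleton ℝ D)

lemma p_idem (H : Hyp h D p) : IsIdempotentElem (p : End ℝ V) := by
  obtain ⟨ι, _, b, r, hd⟩ := H.diag
  exact b.ext fun i => by rcases (hd i).2 with h | h <;> simp [h.2]

lemma exists_pu (H : Hyp h D p) : ∃ R ∈ h, Pu (hE h : Set (End ℝ V)) (R : End ℝ V) (p : End ℝ V) := by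
  obtain ⟨ι, _, b, r, hd⟩ := H.diag
  obtain ⟨_, ⟨R, hR, rfl⟩, hp⟩ := pure (h := hE h) (D := (D : End ℝ V)) (p := (p : End ℝ V))
    (by rintro _ ⟨X, hX, rfl⟩ _ ⟨Y, hY, rfl⟩; exact ⟨_, H.lie X hX Y hY, rfl⟩) ⟨D, H.mem, rfl⟩ hd
    (by rintro _ ⟨X, hX, rfl⟩ _ ⟨Y, hY, rfl⟩; exact H.tr0 X hX Y hY)
  exact ⟨R, hR, hp⟩

end Crest.Agent.N221.Pur

namespace Crest.Agent.N221.Hu
open Pur

theorem purS : PurS := by
  intro V _ _ _ h D p H
  obtain ⟨R, -, hp⟩ := exists_pu H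
  have pm := p_mem H
  refine ⟨pm, fun a ha => mem_rad (sub_mem (mul_mem pm ha) (mul_mem ha pm)) fun A B hi v hv => ?_⟩
  have a0 := env_inv (inv_iff.1 hi.i0) a ha
  have a1 := env_inv (inv_iff.1 hi.i1) a ha
  obtain ⟨c, -, t | t⟩ := hp A B hi
  · convert A.sub_mem (a0 _ (t.2 v hv)) (t.2 _ (a1 v hv)) using 1
    simp
  · exact A.sub_mem (t.2 _ (a1 v hv)) (a0 _ (t.2 v hv))

theorem lyS : LYS := by
  intro V _ _ _ h D p Yu Ys N₁ N₂ t₁ t₂ H iu is i1 i2 u0 s0 pu ps hJ ht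
  obtain ⟨R, hR, hp⟩ := exists_pu H
  have pm := p_mem H
  have pi := p_idem H
  have pM (M) (hM : Pur.Inv (hE h : Set (End ℝ V)) M) : To (p : End ℝ V) M M :=
    env_inv (inv_iff.1 hM) p pm
  have cm (X) (hX : X ∈ h) : X * R - R * X ∈ rad (env h) :=
    mem_rad (Algebra.subset_adjoin (H.lie X hX R hR)) fun A B hi v hv => by
      obtain ⟨c, hc, -⟩ := hp A B hi
      convert A.sub_mem (inv_iff.1 hi.i0 X hX _ (hc v hv)) (hc _ (inv_iff.1 hi.i1 X hX v hv))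
        using 1
      simp
  have eg (Y : Submodule ℝ V) (iY : Inv h Y) (kY : ∀ j ∈ rad (env h), ∀ u ∈ Y, j u = 0) (c : ℝ) :
      Pur.Inv (hE h : Set (End ℝ V)) (Y ⊓ End.eigenspace (R : End ℝ V) c) :=
    inv_iff.2 fun X hX v hv => ⟨iY X hX v hv.1, by
      have e1 : X (R v) - R (X v) = 0 := kY _ (cm X hX) v hv.1
      have e2 : R v = c • v := End.mem_eigenspace_iff.1 hv.2
      rw [e2, map_smul, sub_eq_zero] at e1
      exact End.mem_eigenspace_iff.2 e1.symm⟩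
  have gi (q : V →L[ℝ] V) (N : Submodule ℝ V) (iN : Inv h N) (hq : q ∈ env h) (qi : q * q = q) :
      Pur.Inv (hE h : Set (End ℝ V)) (gen (env h) q N) ∧ gen (env h) q N ≤ N ∧
      ∀ M, Pur.Inv (hE h : Set (End ℝ V)) M → To (q : End ℝ V) (gen (env h) q N) M →
        gen (env h) q N ≤ M := by
    refine ⟨inv_iff.2 fun X hX v hv => ?_, Submodule.span_le.2 ?_,
      fun M hM hT => Submodule.span_le.2 ?_⟩
    · refine (Submodule.span_le (p := Submodule.comap (X : V →ₗ[ℝ] V) (gen (env h) q N))).2 ?_ hv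
      rintro _ ⟨a, ha, w, hw, rfl⟩
      exact Submodule.subset_span ⟨X * a, mul_mem (Algebra.subset_adjoin hX) ha, w, hw, rfl⟩
    · rintro _ ⟨a, ha, _, ⟨w, hw, rfl⟩, rfl⟩
      exact env_inv iN a ha _ (env_inv iN q hq w hw)
    · rintro _ ⟨a, ha, _, ⟨w, hw, rfl⟩, rfl⟩
      refine env_inv (inv_iff.1 hM) a ha _ ?_
      have := hT (q w) (Submodule.subset_span ⟨1, one_mem _, _, ⟨w, hw, rfl⟩, rfl⟩)
      rwa [show (q : End ℝ V) (q w) = q w from congrArg (fun f : V →L[ℝ] V => f w) qi] at this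
  have pp : p * p = p := ContinuousLinearMap.coe_injective pi
  have qq : (1 - p) * (1 - p) = 1 - p := IsIdempotentElem.one_sub pp
  let Ω := {c : ℝ | ∃ w, (w ∈ Yu ∨ w ∈ Ys) ∧ w ≠ 0 ∧ R w = c • w}
  have fin : Ω.Finite := (End.finite_hasEigenvalue (R : End ℝ V)).subset
    fun c ⟨w, _, a, b⟩ => End.hasEigenvalue_of_hasEigenvector ⟨End.mem_eigenspace_iff.2 b, a⟩
  have ne : Ω.Nonempty := by
    obtain ⟨M, hM, hi⟩ := exists_irr (inv_bot _) (inv_iff.2 iu) (bot_lt_iff_ne_bot.2 u0)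
    obtain ⟨c, hc, -⟩ := hp _ _ hi
    obtain ⟨w, w1, w2, w3⟩ := eig hi.lt hc
    exact ⟨c, w, Or.inl (hM w1), w2, by simpa [sub_eq_zero] using w3⟩
  obtain ⟨a, ⟨w, hw, w0, wa⟩, mn⟩ := Set.exists_min_image Ω (fun c => |c|) fin ne
  have lin (t : V →L[ℝ] V →L[ℝ] V →L[ℝ] ℝ) : (∀ v w, IsLinearMap ℝ fun u => t u v w) ∧
      (∀ u w, IsLinearMap ℝ fun v => t u v w) ∧ ∀ u v, IsLinearMap ℝ fun w => t u v w :=
    ⟨fun _ _ => ⟨by simp, by simp⟩, fun _ _ => ⟨by simp, by simp⟩, fun _ _ => ⟨by simp, by simp⟩⟩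
  rcases hw with hw | hw
  · have key (N) (iN : Inv h N) (t : V →L[ℝ] V →L[ℝ] V →L[ℝ] ℝ)
        (ti : ∀ X ∈ h, TInv t Yu N Ys X) : ∀ v ∈ gen (env h) (1 - p) N, ∀ z ∈ Ys, t w v z = 0 := by
      obtain ⟨g1, g2, g3⟩ := gi (1 - p) N iN (sub_mem (one_mem _) pm) qq
      exact hp.half ⟨R, hR, rfl⟩ pM pi (eg Yu iu (fun j hj => (hJ j hj).1) a) g1 (inv_iff.2 is)
        (a := a) (fun u hu => End.mem_eigenspace_iff.1 hu.2)
        (fun c z hz z0 e => (le_abs_self a).trans (mn c ⟨z, Or.inr hz, z0, e⟩)) ps g3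
        (fun u v z => t u v z) (lin t).1 (lin t).2.1 (lin t).2.2
        (by rintro _ ⟨X, hX, rfl⟩ u hu v hv z hz; exact ti X hX u hu.1 v (g2 hv) z hz)
        w ⟨hw, End.mem_eigenspace_iff.2 wa⟩
    exact Or.inl ⟨w, hw, w0, key N₁ i1 t₁ fun X hX => (ht X hX).1,
      key N₂ i2 t₂ fun X hX => (ht X hX).2⟩
  · have key (N) (iN : Inv h N) (t : V →L[ℝ] V →L[ℝ] V →L[ℝ] ℝ)
        (ti : ∀ X ∈ h, TInv t Yu N Ys X) : ∀ u ∈ Yu, ∀ v ∈ gen (env h) p N, t u v w = 0 := by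
      obtain ⟨g1, g2, g3⟩ := gi p N iN pm pp
      intro u hu v hv
      exact hp.neg.half ⟨-R, neg_mem hR, rfl⟩
        (fun M hM v hv => M.sub_mem hv (pM M hM v hv)) pi.one_sub
        (eg Ys is (fun j hj => (hJ j hj).2) a) g1 (inv_iff.2 iu) (a := -a)
        (fun u hu => by
          have : R u = a • u := End.mem_eigenspace_iff.1 hu.2
          simp [this])
        (fun c z hz z0 e => by
          have := mn (-c) ⟨z, Or.inl hz, z0, by rw [neg_smul]; exact neg_eq_iff_eq_neg.1 e⟩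
          simp only [abs_neg] at this
          exact (neg_le_abs a).trans this)
        (fun z hz => by simp [pu z hz]) (fun M hM hT => g3 M hM (by simpa using hT))
        (fun z v u => t u v z) (fun v u => (lin t).2.2 u v) (fun z u => (lin t).2.1 u z)
        (fun z v => (lin t).1 v z)
        (by
          rintro _ ⟨X, hX, rfl⟩ z hz v hv u hu
          have := ti X hX u hu v (g2 hv) z hz.1
          change t u v (X z) + t u (X v) z + t (X u) v z = 0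
          linarith)
        w ⟨hw, End.mem_eigenspace_iff.2 wa⟩ v hv u hu
    exact Or.inr ⟨w, hw, w0, key N₁ i1 t₁ fun X hX => (ht X hX).1,
      key N₂ i2 t₂ fun X hX => (ht X hX).2⟩

end Crest.Agent.N221.Hu
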