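import Mathlib

/-! Row 221, A1: linear algebra tools for purity (traces on subquotients, induction on flags). -/
open Module Polynomial
set_option linter.unusedSectionVars false
namespace Crest.Agent.N221.Pur
variable {E : Type*} [AddCommGroup E] [Module ℝ E] [FiniteDimensional ℝ E]

local notation "tr" => LinearMap.trace ℝ _

lemma tr_aeval_X (g : End ℝ E) (h : ∀ k, 0 < k → tr (g ^ k) = 0) (a : ℝ[X]) :
    tr (aeval g (a * X)) = 0 := by
  induction a using Polynomial.induction_on' with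
  | add p q hp hq => rw [add_mul, map_add, map_add, hp, hq, add_zero]
  | monomial n c =>
    rw [monomial_mul_X, aeval_monomial, ← Algebra.smul_def, map_smul, h _ n.succ_pos, smul_zero]

lemma nil_of_tr (g : End ℝ E) (h : ∀ k, 0 < k → tr (g ^ k) = 0) : IsNilpotent g := by
  have hp : (X * g.charpoly : ℝ[X]) ≠ 0 := mul_ne_zero X_ne_zero g.charpoly_monic.ne_zero
  obtain ⟨q, hq, hd⟩ := exists_eq_pow_rootMultiplicity_mul_and_not_dvd _ hp 0
  have hj : 0 < rootMultiplicity 0 (X * g.charpoly : ℝ[X]) :=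
    (rootMultiplicity_pos hp).2 (by simp)
  simp only [map_zero, sub_zero] at hq hd
  generalize rootMultiplicity 0 (X * g.charpoly : ℝ[X]) = j at hq hj
  obtain ⟨j, rfl⟩ : ∃ i, j = i + 1 := ⟨j - 1, by omega⟩
  have hc : IsCoprime (X ^ (j + 1) : ℝ[X]) q :=
    (irreducible_X.coprime_iff_not_dvd.2 hd).pow_left
  obtain ⟨a, b, hab⟩ := hc
  have h0 : aeval g (X ^ (j + 1) * q) = 0 := by
    rw [← hq, map_mul, LinearMap.aeval_self_charpoly, mul_zero]
  have he : IsIdempotentElem (aeval g (a * X ^ (j + 1))) := by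
    have : a * X ^ (j + 1) * (a * X ^ (j + 1)) = a * X ^ (j + 1) - a * b * (X ^ (j + 1) * q) := by
      linear_combination (a * X ^ (j + 1)) * hab
    rw [IsIdempotentElem, ← map_mul, this, map_sub, map_mul _ (a * b), h0, mul_zero, sub_zero]
  have ht : tr (aeval g (a * X ^ (j + 1))) = 0 := by
    rw [pow_succ, ← mul_assoc]; exact tr_aeval_X g h _
  have hz := LinearMap.IsIdempotentElem.eq_zero_of_trace_eq_zero he ht
  refine ⟨j + 1, ?_⟩
  have : (X ^ (j + 1) : ℝ[X]) = X ^ (j + 1) * (a * X ^ (j + 1)) + b * (X ^ (j + 1) * q) := by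
    linear_combination (-(X ^ (j + 1) : ℝ[X])) * hab
  have h2 := congrArg (aeval g) this
  rw [map_add, map_mul _ (X ^ (j + 1)), hz, map_mul _ b, h0] at h2
  simpa using h2

lemma tr_idem_nonneg {e : End ℝ E} (he : IsIdempotentElem e) : 0 ≤ tr e := by
  rw [(LinearMap.IsIdempotentElem.isProj_range e he).trace]; positivity

lemma mtr_cube {n : Type*} [Fintype n] [DecidableEq n] (g : Matrix n n ℝ) (h : g ^ 3 = -g) :
    g.trace = 0 := by
  open Matrix in
  set e := -(g * g) with he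
  have h3 : g * g * g = -g := by rw [← h]; noncomm_ring
  have eg : e * g = g := by rw [he, neg_mul, h3, neg_neg]
  set S := eᵀ * e + gᵀ * g + (1 - e)ᵀ * (1 - e) with hS
  have a1 : gᵀ * eᵀ = gᵀ := by rw [← transpose_mul, eg]
  have a2 : gᵀ * gᵀ = -eᵀ := by rw [← transpose_mul, he, transpose_neg, neg_neg]
  have a3 : (1 - e) * g = 0 := by rw [sub_mul, one_mul, eg, sub_self]
  have a4 : gᵀ * (1 - e)ᵀ = 0 := by rw [← transpose_mul, a3, transpose_zero]
  have a5 : g * g = -e := by rw [he, neg_neg]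
  have key : gᵀ * S = -(S * g) := by
    rw [hS, mul_add, mul_add, add_mul, add_mul, ← mul_assoc, ← mul_assoc, ← mul_assoc, a1, a2, a4,
      mul_assoc, mul_assoc, mul_assoc, eg, a5, a3]
    noncomm_ring
  have hu : IsUnit S := by
    rw [← Matrix.mulVec_injective_iff_isUnit]
    refine (injective_iff_map_eq_zero (Matrix.mulVecLin S)).2 fun x hx => ?_
    have q (A : Matrix n n ℝ) : x ⬝ᵥ ((Aᵀ * A) *ᵥ x) = (A *ᵥ x) ⬝ᵥ (A *ᵥ x) := by
      rw [← mulVec_mulVec, dotProduct_mulVec, vecMul_transpose]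
    have nn (y : n → ℝ) : 0 ≤ y ⬝ᵥ y := Finset.sum_nonneg fun i _ => mul_self_nonneg _
    have : x ⬝ᵥ (S *ᵥ x) = 0 := by rw [show S *ᵥ x = 0 from hx, dotProduct_zero]
    rw [hS, add_mulVec, add_mulVec, dotProduct_add, dotProduct_add, q, q, q] at this
    have b1 : e *ᵥ x = 0 := dotProduct_self_eq_zero.1 (by
      linarith [nn (e *ᵥ x), nn (g *ᵥ x), nn ((1 - e) *ᵥ x)])
    have b2 : (1 - e) *ᵥ x = 0 := dotProduct_self_eq_zero.1 (by
      linarith [nn (e *ᵥ x), nn (g *ᵥ x), nn ((1 - e) *ᵥ x)])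
    rwa [sub_mulVec, b1, one_mulVec, sub_zero] at b2
  obtain ⟨u, hu⟩ := hu
  have : gᵀ = -((u : Matrix n n ℝ) * g * (u⁻¹ : (Matrix n n ℝ)ˣ)) := by
    rw [← neg_mul, hu, ← key, ← hu, mul_assoc, Units.mul_inv, mul_one]
  have h2 := congrArg Matrix.trace this
  rw [trace_transpose, trace_neg, trace_units_conj] at h2
  linarith

lemma tr_cube (g : End ℝ E) (h : g ^ 3 = -g) : tr g = 0 := by
  let b := Module.finBasis ℝ E
  rw [LinearMap.trace_eq_matrix_trace ℝ b]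
  apply mtr_cube
  have := congrArg (LinearMap.toMatrixAlgEquiv b) h
  rw [map_pow, map_neg] at this
  exact this

/-- `f` maps `M` to `M'`. -/
def To (f : End ℝ E) (M M' : Submodule ℝ E) : Prop := ∀ v ∈ M, f v ∈ M'

/-- `f` preserves `M₀` and `M₁`. -/
def Pr (M₀ M₁ : Submodule ℝ E) (f : End ℝ E) : Prop := To f M₀ M₀ ∧ To f M₁ M₁

lemma To.mul {f g : End ℝ E} {M M' M'' : Submodule ℝ E} (hf : To f M' M'') (hg : To g M M') :
    To (f * g) M M'' := fun v hv => hf _ (hg v hv)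

/-- The operators preserving `M₀` and `M₁`. -/
def PrA (M₀ M₁ : Submodule ℝ E) : Subalgebra ℝ (End ℝ E) where
  carrier := {f | Pr M₀ M₁ f}
  mul_mem' hf hg := ⟨hf.1.mul hg.1, hf.2.mul hg.2⟩
  add_mem' hf hg := ⟨fun v hv => M₀.add_mem (hf.1 v hv) (hg.1 v hv),
    fun v hv => M₁.add_mem (hf.2 v hv) (hg.2 v hv)⟩
  algebraMap_mem' c := ⟨fun _ hv => M₀.smul_mem c hv, fun _ hv => M₁.smul_mem c hv⟩

lemma exists_pj (M : Submodule ℝ E) : ∃ p : End ℝ E, LinearMap.IsProj M p := by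
  obtain ⟨N, hN⟩ := M.exists_isCompl
  exact ⟨M.subtype ∘ₗ M.projectionOnto N hN, fun x => (M.projectionOnto N hN x).2,
    fun x hx => congrArg Subtype.val (Submodule.projectionOnto_apply_left hN ⟨x, hx⟩)⟩

/-- A projection onto `M`. -/
noncomputable def pj (M : Submodule ℝ E) : End ℝ E := (exists_pj M).choose

lemma pj_isProj (M : Submodule ℝ E) : LinearMap.IsProj M (pj M) := (exists_pj M).choose_spec

/-- Trace on an invariant subspace. -/
noncomputable def tq (M : Submodule ℝ E) : End ℝ E →ₗ[ℝ] ℝ :=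
  (LinearMap.trace ℝ E) ∘ₗ LinearMap.mulRight ℝ (pj M)

lemma tq_eq {M : Submodule ℝ E} {f p : End ℝ E} (hf : To f M M) (hp : LinearMap.IsProj M p) :
    tq M f = tr (f * p) := by
  have h1 : f * pj M = p * (f * pj M) := by
    ext v; exact (hp.map_id _ (hf _ ((pj_isProj M).map_mem v))).symm
  have h2 : pj M * p = p := by
    ext v; exact (pj_isProj M).map_id _ (hp.map_mem v)
  change tr (f * pj M) = _
  rw [h1, LinearMap.trace_mul_comm, mul_assoc, h2]

lemma tq_top (f : End ℝ E) : tq ⊤ f = tr f := by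
  rw [tq_eq (p := 1) (fun _ _ => Submodule.mem_top) ⟨fun _ => Submodule.mem_top, fun _ _ => rfl⟩,
    mul_one]

lemma tq_bot (f : End ℝ E) : tq ⊥ f = 0 := by
  rw [tq_eq (p := 0) (fun v hv => by simp [(Submodule.mem_bot ℝ).1 hv])
    ⟨fun _ => by simp, fun v hv => by simp [(Submodule.mem_bot ℝ).1 hv]⟩, mul_zero, map_zero]

/-- The action on the subquotient `M₁ / M₀`, realised inside `End E`. -/
lemma exists_phi {M₀ M₁ : Submodule ℝ E} (hle : M₀ ≤ M₁) : ∃ φ : End ℝ E →ₗ[ℝ] End ℝ E,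
    (∀ f ∈ PrA M₀ M₁, ∀ g ∈ PrA M₀ M₁, φ (f * g) = φ f * φ g) ∧
    (∀ f ∈ PrA M₀ M₁, φ f = 0 ↔ To f M₁ M₀) ∧
    (∀ f ∈ PrA M₀ M₁, tr (φ f) = tq M₁ f - tq M₀ f) := by
  have P0 := pj_isProj M₀
  have P1 := pj_isProj M₁
  set q : End ℝ E := pj M₁ - pj M₀ * pj M₁ with hq
  have q1 (v) : q v ∈ M₁ := M₁.sub_mem (P1.map_mem v) (hle (P0.map_mem _))
  have q2 (v) (hv : v ∈ M₁) : q v = v - pj M₀ v := by
    simp [hq, P1.map_id v hv]
  have q0 (v) (hv : v ∈ M₀) : q v = 0 := by rw [q2 v (hle hv), P0.map_id v hv, sub_self]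
  have qq (v) : q (q v) = q v := by
    conv_lhs => rw [hq]
    have : q v = pj M₁ v - pj M₀ (pj M₁ v) := rfl
    rw [← hq, this, map_sub, q0 _ (P0.map_mem _), sub_zero, q2 _ (P1.map_mem v)]
  refine ⟨LinearMap.mulLeft ℝ q ∘ₗ LinearMap.mulRight ℝ q, fun f hf g hg => ?_,
    fun f hf => ⟨fun h v hv => ?_, fun h => ?_⟩, fun f hf => ?_⟩
  · ext v
    change q (f (g (q v))) = q (f (q (q (g (q v)))))
    rw [qq, q2 _ (hg.2 _ (q1 v)), map_sub, map_sub, q0 _ (hf.1 _ (P0.map_mem _)), sub_zero]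
  · have h1 : q (f (q v)) = 0 := LinearMap.congr_fun h v
    rw [q2 _ (hf.2 _ (q1 v)), sub_eq_zero] at h1
    have : f v = f (q v) + f (pj M₀ v) := by rw [q2 v hv, map_sub, sub_add_cancel]
    rw [this, h1]
    exact M₀.add_mem (P0.map_mem _) (hf.1 _ (P0.map_mem _))
  · ext v; exact q0 _ (h _ (q1 v))
  · change tr (q * (f * q)) = _
    have : q * q = q := by ext v; exact qq v
    rw [LinearMap.trace_mul_comm, mul_assoc, this, tq_eq hf.2 P1,
      tq_eq (p := pj M₀ * pj M₁) hf.1 ⟨fun v => P0.map_mem _, fun v hv => by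
        simp [P1.map_id v (hle hv), P0.map_id v hv]⟩, hq, mul_sub, map_sub]

/-- `M` is invariant under `h`. -/
def Inv (h : Set (End ℝ E)) (M : Submodule ℝ E) : Prop := ∀ X ∈ h, To X M M

/-- `M₁ / M₀` is an irreducible subquotient. -/
structure Irr (h : Set (End ℝ E)) (M₀ M₁ : Submodule ℝ E) : Prop where
  i0 : Inv h M₀
  i1 : Inv h M₁
  lt : M₀ < M₁
  mx : ∀ M, Inv h M → M₀ ≤ M → M ≤ M₁ → M = M₀ ∨ M = M₁

lemma ind {h : Set (End ℝ E)} {P : Submodule ℝ E → Submodule ℝ E → Prop}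
    (rf : ∀ M, Inv h M → P M M) (ir : ∀ M₀ M₁, Irr h M₀ M₁ → P M₀ M₁)
    (tn : ∀ M₀ M₁ M₂, Inv h M₀ → Inv h M₁ → Inv h M₂ → M₀ ≤ M₁ → M₁ ≤ M₂ → P M₀ M₁ → P M₁ M₂ →
      P M₀ M₂) {M₀ M₁} (h0 : Inv h M₀) (h1 : Inv h M₁) (hle : M₀ ≤ M₁) : P M₀ M₁ := by
  induction hn : finrank ℝ M₁ - finrank ℝ M₀ using Nat.strong_induction_on
    generalizing M₀ M₁ with
  | _ n ih =>
  rcases hle.eq_or_lt with rfl | hlt
  · exact rf _ h0
  by_cases hm : ∀ M, Inv h M → M₀ ≤ M → M ≤ M₁ → M = M₀ ∨ M = M₁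
  · exact ir _ _ ⟨h0, h1, hlt, hm⟩
  push Not at hm
  obtain ⟨M, hM, a, b, c, d⟩ := hm
  have a' := Submodule.finrank_lt_finrank_of_lt (lt_of_le_of_ne a c.symm)
  have b' := Submodule.finrank_lt_finrank_of_lt (lt_of_le_of_ne b d)
  exact tn _ _ _ h0 hM h1 a b (ih _ (by omega) h0 hM a rfl) (ih _ (by omega) hM h1 b rfl)

lemma inv_top (h : Set (End ℝ E)) : Inv h ⊤ := fun _ _ _ _ => trivial

lemma inv_bot (h : Set (End ℝ E)) : Inv h ⊥ := fun _ _ v hv => by
  simp [(Submodule.mem_bot ℝ).1 hv]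

/-- Between two invariant subspaces there is an irreducible bottom step. -/
lemma exists_irr {h : Set (End ℝ E)} {M₀ M₁} (h0 : Inv h M₀) (h1 : Inv h M₁) (hlt : M₀ < M₁) :
    ∃ M, M ≤ M₁ ∧ Irr h M₀ M := by
  refine ind (P := fun A B => A < B → ∃ M, M ≤ B ∧ Irr h A M) (fun _ _ h => absurd h (lt_irrefl _))
    (fun A B hi _ => ⟨B, le_rfl, hi⟩) (fun A B C _ _ _ a b p q hl => ?_) h0 h1 hlt.le hlt
  rcases a.eq_or_lt with rfl | a
  · exact q hl
  · obtain ⟨M, hM, hi⟩ := p a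
    exact ⟨M, hM.trans b, hi⟩

attribute [local instance 100] LieRing.ofAssociativeRing in
/-- Engel's theorem as a flag. -/
lemma engel (L : Submodule ℝ (End ℝ E)) (hl : ∀ X ∈ L, ∀ Y ∈ L, X * Y - Y * X ∈ L)
    (hn : ∀ X ∈ L, IsNilpotent X) : ∃ F : ℕ → Submodule ℝ E, F 0 = ⊤ ∧
      (∀ k, ∀ X ∈ L, To X (F k) (F (k + 1))) ∧ ∃ k, F k = ⊥ := by
  let L' : LieSubalgebra ℝ (End ℝ E) := { L with lie_mem' := fun {x y} hx hy => hl x hx y hy }
  have : LieModule.IsNilpotent L' E :=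
    (LieModule.isNilpotent_iff_forall' (R := ℝ)).2 fun x => hn x x.2
  obtain ⟨k, hk⟩ := LieModule.IsNilpotent.nilpotent ℝ L' E
  refine ⟨fun k => (LieModule.lowerCentralSeries ℝ L' E k).toSubmodule, by simp,
    fun k X hX v hv => ?_, k, by simp [hk]⟩
  have := LieSubmodule.lie_mem_lie (I := (⊤ : LieIdeal ℝ L')) (x := ⟨X, hX⟩) trivial hv
  rw [← LieModule.lowerCentralSeries_succ] at this
  exact this

end Crest.Agent.N221.Pur
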