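import Crest.Agent.N221.Hu.Pur0

/-! Row 221, A1: the ideal `rad ∩ [h,h]` kills every irreducible subquotient (Cartan's criterion). -/
open Module Polynomial
set_option linter.unusedSectionVars false
namespace Crest.Agent.N221.Pur
variable {E : Type*} [AddCommGroup E] [Module ℝ E] [FiniteDimensional ℝ E]

local notation "tr" => LinearMap.trace ℝ _

/-- span of the commutators -/
def br (A B : Submodule ℝ (End ℝ E)) : Submodule ℝ (End ℝ E) :=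
  Submodule.span ℝ {x | ∃ a ∈ A, ∃ b ∈ B, a * b - b * a = x}

lemma mem_br {A B : Submodule ℝ (End ℝ E)} {a b} (ha : a ∈ A) (hb : b ∈ B) :
    a * b - b * a ∈ br A B := Submodule.subset_span ⟨a, ha, b, hb, rfl⟩

lemma br_le {A B C : Submodule ℝ (End ℝ E)} (h : ∀ a ∈ A, ∀ b ∈ B, a * b - b * a ∈ C) :
    br A B ≤ C := Submodule.span_le.2 (by rintro _ ⟨a, ha, b, hb, rfl⟩; exact h a ha b hb)

variable {h : Set (End ℝ E)} {M₀ M₁ : Submodule ℝ E}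

lemma Irr.pr (hi : Irr h M₀ M₁) {X} (hX : X ∈ h) : X ∈ PrA M₀ M₁ := ⟨hi.i0 X hX, hi.i1 X hX⟩

lemma Irr.kill (hi : Irr h M₀ M₁) (L : Set (End ℝ E)) (hL : ∀ W ∈ L, To W M₀ M₀)
    (id : ∀ X ∈ h, ∀ W ∈ L, X * W - W * X ∈ L ∨ To (X * W - W * X) M₁ M₀)
    (ex : ∃ v ∈ M₁, v ∉ M₀ ∧ ∀ W ∈ L, W v ∈ M₀) : ∀ W ∈ L, To W M₁ M₀ := by
  let K : Submodule ℝ E :=
    { carrier := {v | v ∈ M₁ ∧ ∀ W ∈ L, W v ∈ M₀}
      add_mem' := fun ha hb => ⟨M₁.add_mem ha.1 hb.1, fun W hW => by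
        rw [map_add]; exact M₀.add_mem (ha.2 W hW) (hb.2 W hW)⟩
      zero_mem' := ⟨M₁.zero_mem, fun W _ => by simp⟩
      smul_mem' := fun c _ ha => ⟨M₁.smul_mem c ha.1, fun W hW => by
        rw [map_smul]; exact M₀.smul_mem c (ha.2 W hW)⟩ }
  have hK : Inv h K := fun X hX v hv => ⟨hi.i1 X hX v hv.1, fun W hW => by
    have : W (X v) = X (W v) - (X * W - W * X) v := by simp
    rw [this]
    exact M₀.sub_mem (hi.i0 X hX _ (hv.2 W hW))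
      ((id X hX W hW).elim (fun h' => hv.2 _ h') fun h' => h' v hv.1)⟩
  rcases hi.mx K hK (fun v hv => ⟨hi.lt.le hv, fun W hW => hL W hW v hv⟩) (fun v hv => hv.1)
    with e | e
  · obtain ⟨v, a, b, c⟩ := ex
    exact absurd (e ▸ (⟨a, c⟩ : v ∈ K)) b
  · exact fun W hW v hv => (show v ∈ K from e ▸ hv).2 W hW

lemma ex_of_nil (hlt : M₀ < M₁) {V : End ℝ E} (hV : To V M₁ M₁) {j : ℕ} (hj : To (V ^ j) M₁ M₀) :
    ∃ v ∈ M₁, v ∉ M₀ ∧ ∀ W ∈ ({V} : Set (End ℝ E)), W v ∈ M₀ := by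
  obtain ⟨k, a, b⟩ := Nat.exists_not_and_succ_of_not_zero_of_exists
    (p := fun j => To (V ^ j) M₁ M₀) (fun h0 => hlt.2 fun v hv => by simpa using h0 v hv) ⟨j, hj⟩
  simp only [To, not_forall] at a
  obtain ⟨v, hv, a⟩ := a
  have hp : ∀ i, (V ^ i) v ∈ M₁ := fun i => by
    induction i with
    | zero => simpa
    | succ i ih => rw [pow_succ']; exact hV _ ih
  refine ⟨_, hp k, a, ?_⟩
  rintro _ rfl
  have := b v hv
  rwa [pow_succ'] at this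

/-- Operators that commute with `h` on `M₁ / M₀`. -/
def Cen (h : Set (End ℝ E)) (M₀ M₁ : Submodule ℝ E) (hh : ∀ X ∈ h, X ∈ PrA M₀ M₁) :
    Subalgebra ℝ (End ℝ E) where
  carrier := {S | S ∈ PrA M₀ M₁ ∧ ∀ X ∈ h, To (X * S - S * X) M₁ M₀}
  mul_mem' {S S'} a b := ⟨(PrA M₀ M₁).mul_mem a.1 b.1, fun X hX v hv => by
    have : (X * (S * S') - S * S' * X) v = (X * S - S * X) (S' v) + S ((X * S' - S' * X) v) := by
      simp
    rw [this]
    exact M₀.add_mem (a.2 X hX _ (b.1.2 v hv)) (a.1.1 _ (b.2 X hX v hv))⟩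
  add_mem' {S S'} a b := ⟨(PrA M₀ M₁).add_mem a.1 b.1, fun X hX v hv => by
    have : (X * (S + S') - (S + S') * X) v = (X * S - S * X) v + (X * S' - S' * X) v := by
      simp; abel
    rw [this]
    exact M₀.add_mem (a.2 X hX v hv) (b.2 X hX v hv)⟩
  algebraMap_mem' c := ⟨(PrA M₀ M₁).algebraMap_mem c, fun X _ v _ => by
    rw [← Algebra.commutes, sub_self]; exact M₀.zero_mem⟩

lemma Irr.kill1 (hi : Irr h M₀ M₁) {S} (hS : S ∈ Cen h M₀ M₁ fun _ => hi.pr) {j : ℕ}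
    (hj : To (S ^ j) M₁ M₀) : To S M₁ M₀ :=
  hi.kill {S} (by rintro _ rfl; exact hS.1.1) (by rintro X hX _ rfl; exact Or.inr (hS.2 X hX))
    (ex_of_nil hi.lt hS.1.2 hj) S rfl

/-- The properties of the subquotient map. -/
structure Phi (M₀ M₁ : Submodule ℝ E) (φ : End ℝ E →ₗ[ℝ] End ℝ E) : Prop where
  mul : ∀ f ∈ PrA M₀ M₁, ∀ g ∈ PrA M₀ M₁, φ (f * g) = φ f * φ g
  zero : ∀ f ∈ PrA M₀ M₁, φ f = 0 ↔ To f M₁ M₀
  trc : ∀ f ∈ PrA M₀ M₁, tr (φ f) = tq M₁ f - tq M₀ f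

lemma phi (hle : M₀ ≤ M₁) : ∃ φ, Phi M₀ M₁ φ := by
  obtain ⟨φ, a, b, c⟩ := exists_phi hle
  exact ⟨φ, a, b, c⟩

variable {φ : End ℝ E →ₗ[ℝ] End ℝ E}

lemma Phi.comm (hφ : Phi M₀ M₁ φ) {f g} (hf : f ∈ PrA M₀ M₁) (hg : g ∈ PrA M₀ M₁)
    (hc : To (f * g - g * f) M₁ M₀) : Commute (φ f) (φ g) := by
  have := (hφ.zero _ ((PrA M₀ M₁).sub_mem ((PrA M₀ M₁).mul_mem hf hg)
    ((PrA M₀ M₁).mul_mem hg hf))).2 hc
  rwa [map_sub, hφ.mul f hf g hg, hφ.mul g hg f hf, sub_eq_zero] at this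

lemma Phi.pow (hφ : Phi M₀ M₁ φ) {f} (hf : f ∈ PrA M₀ M₁) (k : ℕ) :
    φ (f ^ (k + 1)) = φ f ^ (k + 1) := by
  induction k with
  | zero => simp
  | succ k ih => rw [pow_succ, hφ.mul _ ((PrA M₀ M₁).pow_mem hf _) _ hf, ih, ← pow_succ]

lemma Phi.tr_br (hφ : Phi M₀ M₁ φ) {A B : Submodule ℝ (End ℝ E)} (hA : ∀ X ∈ A, X ∈ PrA M₀ M₁)
    (hB : ∀ X ∈ B, X ∈ PrA M₀ M₁) {a : End ℝ E} (ha : ∀ W ∈ B, Commute a (φ W)) :
    ∀ Z ∈ br A B, tr (a * φ Z) = 0 := by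
  intro Z hZ
  induction hZ using Submodule.span_induction with
  | mem x hx =>
    obtain ⟨X, hX, W, hW, rfl⟩ := hx
    rw [map_sub, hφ.mul _ (hA X hX) _ (hB W hW), hφ.mul _ (hB W hW) _ (hA X hX), mul_sub, map_sub,
      ← mul_assoc, ← mul_assoc, (ha W hW).eq, LinearMap.trace_mul_comm, ← mul_assoc, sub_self]
  | zero => simp
  | add x y _ _ hx hy => rw [map_add, mul_add, map_add, hx, hy, add_zero]
  | smul c x _ hx => rw [map_smul, mul_smul_comm, map_smul, hx, smul_zero]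

lemma Phi.nil (hφ : Phi M₀ M₁ φ) {A B : Submodule ℝ (End ℝ E)} (hA : ∀ X ∈ A, X ∈ PrA M₀ M₁)
    (hB : ∀ X ∈ B, X ∈ PrA M₀ M₁) {V} (hV : V ∈ br A B) (hV' : V ∈ PrA M₀ M₁)
    (ha : ∀ W ∈ B, Commute (φ V) (φ W)) : ∃ j, To (V ^ j) M₁ M₀ := by
  obtain ⟨j, hj⟩ := nil_of_tr (φ V) fun k hk => by
    obtain ⟨k, rfl⟩ : ∃ i, k = i + 1 := ⟨k - 1, by omega⟩
    rw [pow_succ]
    exact hφ.tr_br hA hB (fun W hW => (ha W hW).pow_left k) V hV
  refine ⟨j + 1, (hφ.zero _ ((PrA M₀ M₁).pow_mem hV' _)).1 ?_⟩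
  rw [hφ.pow hV', pow_succ, hj, zero_mul]

attribute [local instance 100] LieRing.ofAssociativeRing in
lemma cartan (m : Submodule ℝ (End ℝ E)) (hl : ∀ X ∈ m, ∀ Y ∈ m, X * Y - Y * X ∈ m)
    (ht : ∀ X ∈ m, ∀ Y ∈ m, tr (X * Y) = 0) : ∀ W ∈ br m m, IsNilpotent W := by
  let L : LieSubalgebra ℝ (End ℝ E) := { m with lie_mem' := fun {x y} hx hy => hl x hx y hy }
  have h0 : LieModule.traceForm ℝ L E = 0 := by
    ext x y; exact ht x x.2 y y.2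
  have h1 := (LieModule.isNilpotent_iff_forall' (R := ℝ)).1
    (LieModule.isNilpotent_derivedSeries_of_traceForm_eq_zero h0)
  intro W hW
  have : ∃ x : L, x ∈ LieAlgebra.derivedSeries ℝ L 1 ∧ (x : End ℝ E) = W := by
    induction hW using Submodule.span_induction with
    | mem x hx =>
      obtain ⟨X, hX, Y, hY, rfl⟩ := hx
      exact ⟨⁅(⟨X, hX⟩ : L), (⟨Y, hY⟩ : L)⁆,
        LieSubmodule.lie_mem_lie (LieSubmodule.mem_top _) (LieSubmodule.mem_top _), rfl⟩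
    | zero => exact ⟨0, zero_mem _, rfl⟩
    | add x y _ _ hx hy =>
      obtain ⟨a, ha, rfl⟩ := hx
      obtain ⟨b, hb, rfl⟩ := hy
      exact ⟨a + b, add_mem ha hb, rfl⟩
    | smul c x _ hx =>
      obtain ⟨a, ha, rfl⟩ := hx
      exact ⟨c • a, SMulMemClass.smul_mem c ha, rfl⟩
  obtain ⟨x, hx, rfl⟩ := this
  exact h1 ⟨x, hx⟩

/-- An ideal `m ≤ [h,h]` with zero trace form kills every irreducible subquotient. -/
theorem Irr.ideal {h m : Submodule ℝ (End ℝ E)} (hi : Irr (h : Set (End ℝ E)) M₀ M₁)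
    (mh : m ≤ h) (mb : m ≤ br h h) (id : ∀ X ∈ h, ∀ W ∈ m, X * W - W * X ∈ m)
    (ht : ∀ X ∈ m, ∀ Y ∈ m, tr (X * Y) = 0) : ∀ W ∈ m, To W M₁ M₀ := by
  obtain ⟨φ, hφ⟩ := phi hi.lt.le
  have ph : ∀ X ∈ h, X ∈ PrA M₀ M₁ := fun X hX => hi.pr hX
  have pm : ∀ X ∈ m, X ∈ PrA M₀ M₁ := fun X hX => ph X (mh hX)
  have nm : br m m ≤ m := br_le fun a ha b hb => id a (mh ha) b hb
  have bm : br h m ≤ m := br_le id
  have idb {A B : Submodule ℝ (End ℝ E)} (hA : ∀ X ∈ h, ∀ W ∈ A, X * W - W * X ∈ A)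
      (hB : ∀ X ∈ h, ∀ W ∈ B, X * W - W * X ∈ B) :
      ∀ X ∈ h, ∀ W ∈ br A B, X * W - W * X ∈ br A B := by
    intro X hX W hW
    induction hW using Submodule.span_induction with
    | mem x hx =>
      obtain ⟨a, ha, b, hb, rfl⟩ := hx
      convert (br A B).add_mem (mem_br (hA X hX a ha) hb) (mem_br ha (hB X hX b hb)) using 1
      noncomm_ring
    | zero => simp
    | add x y _ _ hx hy => convert (br A B).add_mem hx hy using 1; noncomm_ring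
    | smul c x _ hx =>
      convert (br A B).smul_mem c hx using 1
      rw [mul_smul_comm, smul_mul_assoc, smul_sub]
  -- `[m,m]` acts as zero
  have s1 : ∀ W ∈ br m m, To W M₁ M₀ := by
    obtain ⟨F, F0, Fs, k, Fk⟩ := engel (br m m)
      (fun X hX Y hY => mem_br (nm hX) (nm hY))
      (cartan m (fun X hX Y hY => id X (mh hX) Y hY) ht)
    obtain ⟨j, a, b⟩ := Nat.exists_not_and_succ_of_not_zero_of_exists
      (p := fun j => M₁ ⊓ F j ≤ M₀) (by simpa [F0] using hi.lt.2) ⟨k, by simp [Fk]⟩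
    obtain ⟨v, hv, a⟩ := SetLike.not_le_iff_exists.1 a
    exact hi.kill _ (fun W hW => (pm W (nm hW)).1) (fun X hX W hW => Or.inl (idb id id X hX W hW))
      ⟨v, hv.1, a, fun W hW => b ⟨(pm W (nm hW)).2 v hv.1, Fs j W hW v hv.2⟩⟩
  -- `[h,m]` acts as zero
  have s2 : ∀ W ∈ br h m, To W M₁ M₀ := by
    obtain ⟨U, hU, iU⟩ := exists_irr (h := (m : Set (End ℝ E))) (fun X hX => (pm X hX).1)
      (fun X hX => (pm X hX).2) hi.lt
    obtain ⟨v, hv, a⟩ := SetLike.not_le_iff_exists.1 iU.lt.2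
    have hl : ∀ X ∈ h, ∀ W ∈ h, X * W - W * X ∈ br h h := fun X hX W hW => mem_br hX hW
    refine hi.kill _ (fun W hW => (pm W (bm hW)).1) (fun X hX W hW => Or.inl ?_)
      ⟨v, hU hv, a, fun V hV => ?_⟩
    · exact mem_br hX (bm hW)
    · obtain ⟨j, hj⟩ := hφ.nil ph pm hV (pm V (bm hV)) fun W hW =>
        hφ.comm (pm V (bm hV)) (pm W hW) (s1 _ (mem_br (bm hV) hW))
      exact iU.kill1 (S := V) ⟨iU.pr (bm hV), fun X hX w hw => s1 _ (mem_br hX (bm hV)) w (hU hw)⟩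
        (j := j) (fun w hw => hj w (hU hw)) v hv
  intro W hW
  obtain ⟨j, hj⟩ := hφ.nil ph ph (mb hW) (pm W hW) fun X hX =>
    (hφ.comm (ph X hX) (pm W hW) (s2 _ (mem_br hX hW))).symm
  exact hi.kill1 ⟨pm W hW, fun X hX => s2 _ (mem_br hX hW)⟩ hj

/-- What acts as zero on all irreducible subquotients has trace zero. -/
lemma tr_zero_of_irr {f : End ℝ E} (hf : ∀ M₀ M₁, Irr h M₀ M₁ → f ∈ PrA M₀ M₁ ∧ To f M₁ M₀) :
    tr f = 0 := by
  have := ind (h := h) (P := fun A B => tq B f - tq A f = 0) (fun _ _ => sub_self _)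
    (fun A B hi => by
      obtain ⟨φ, hφ⟩ := phi hi.lt.le
      rw [← hφ.trc f (hf A B hi).1, (hφ.zero f (hf A B hi).1).2 (hf A B hi).2, map_zero])
    (fun _ _ _ _ _ _ _ _ a b => by linarith) (inv_bot h) (inv_top h) bot_le
  rwa [tq_top, tq_bot, sub_zero] at this

/-- `D = R + D'` with `D' ∈ [h,h]` and `R` central on every irreducible subquotient. -/
theorem exists_R {h : Submodule ℝ (End ℝ E)} (hl : ∀ X ∈ h, ∀ Y ∈ h, X * Y - Y * X ∈ h) {D}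
    (hD : D ∈ h) : ∃ D' ∈ br h h, ∀ M₀ M₁, Irr (h : Set (End ℝ E)) M₀ M₁ →
      ∀ X ∈ h, To (X * (D - D') - (D - D') * X) M₁ M₀ := by
  have bh : br h h ≤ h := br_le hl
  let r : Submodule ℝ (End ℝ E) :=
    { carrier := {W | W ∈ h ∧ ∀ Z ∈ br h h, tr (W * Z) = 0}
      add_mem' := fun a b => ⟨h.add_mem a.1 b.1, fun Z hZ => by
        rw [add_mul, map_add, a.2 Z hZ, b.2 Z hZ, add_zero]⟩
      zero_mem' := ⟨h.zero_mem, fun Z _ => by simp⟩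
      smul_mem' := fun c _ a => ⟨h.smul_mem c a.1, fun Z hZ => by
        rw [smul_mul_assoc, map_smul, a.2 Z hZ, smul_zero]⟩ }
  have idr : ∀ X ∈ h, ∀ W ∈ r, X * W - W * X ∈ r ⊓ br h h := fun X hX W hW =>
    ⟨⟨hl X hX W hW.1, fun Z hZ => by
      have := hW.2 _ (mem_br (bh hZ) hX)
      rw [mul_sub, map_sub] at this
      rw [sub_mul, map_sub, mul_assoc, LinearMap.trace_mul_comm, mul_assoc, mul_assoc, this]⟩,
      mem_br hX hW.1⟩
  have km (M₀ M₁) (hi : Irr (h : Set (End ℝ E)) M₀ M₁) : ∀ W ∈ r ⊓ br h h, To W M₁ M₀ :=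
    hi.ideal (inf_le_right.trans bh) inf_le_right (fun X hX W hW => idr X hX W hW.1)
      fun X hX Y hY => hX.1.2 Y hY.2
  let B : br h h →ₗ[ℝ] br h h →ₗ[ℝ] ℝ := LinearMap.mk₂ ℝ
    (fun x y => tr ((y : End ℝ E) * (x : End ℝ E)))
    (fun _ _ _ => by simp [mul_add]) (fun _ _ _ => by simp) (fun _ _ _ => by simp [add_mul])
    (fun _ _ _ => by simp)
  let l : Dual ℝ (br h h) := (LinearMap.trace ℝ E) ∘ₗ LinearMap.mulLeft ℝ D ∘ₗ (br h h).subtype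
  have hlm : l ∈ (LinearMap.ker B).dualAnnihilator := by
    rw [Submodule.mem_dualAnnihilator]
    intro w hw
    have hw' : (w : End ℝ E) ∈ r ⊓ br h h := ⟨⟨bh w.2, fun Z hZ => by
      rw [LinearMap.trace_mul_comm]; exact LinearMap.congr_fun hw ⟨Z, hZ⟩⟩, w.2⟩
    exact tr_zero_of_irr (h := (h : Set (End ℝ E))) fun A C hi =>
      ⟨(PrA A C).mul_mem (hi.pr hD) (hi.pr (bh w.2)), (hi.i0 D hD).mul (km A C hi _ hw')⟩
  rw [LinearMap.dualAnnihilator_ker_eq_range_flip] at hlm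
  obtain ⟨D', hD'⟩ := hlm
  refine ⟨D', D'.2, fun A C hi X hX => km A C hi _ (idr X hX _ ⟨h.sub_mem hD (bh D'.2), ?_⟩)⟩
  intro Z hZ
  have : tr ((D' : End ℝ E) * Z) = tr (D * Z) := LinearMap.congr_fun hD' ⟨Z, hZ⟩
  rw [sub_mul, map_sub, this, sub_self]

end Crest.Agent.N221.Pur
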