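import Crest.Agent.N221.Hu.Pur1

/-! Row 221, A1: purity of the irreducible subquotients and their central weights. -/
open Module Polynomial
set_option linter.unusedSectionVars false
namespace Crest.Agent.N221.Pur
variable {E : Type*} [AddCommGroup E] [Module ℝ E] [FiniteDimensional ℝ E]

local notation "tr" => LinearMap.trace ℝ _

variable {ι : Type} [Fintype ι] {b : Basis ι ℝ E} {r : ι → ℝ} {D p : End ℝ E}
  {M₀ M₁ : Submodule ℝ E} {φ : End ℝ E →ₗ[ℝ] End ℝ E}

lemma fn (hD : ∀ i, D (b i) = r i • b i) (f : ℝ → ℝ) :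
    ∃ q : ℝ[X], ∀ i, aeval D q (b i) = f (r i) • b i := by
  obtain ⟨q, hq⟩ : ∃ q : ℝ[X], ∀ i, q.eval (r i) = f (r i) :=
    (Polynomial.exists_eval_eq_iff r fun i => f (r i)).mpr fun i j e => by rw [e]
  exact ⟨q, fun i => by rw [End.aeval_apply_of_mem_apply_eq_smul (hD i), hq]⟩

lemma aeval_mem {A : Subalgebra ℝ (End ℝ E)} (h : D ∈ A) (q : ℝ[X]) : aeval D q ∈ A :=
  Algebra.adjoin_le (Set.singleton_subset_iff.2 h) (aeval_mem_adjoin_singleton ℝ D)

open Classical in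
lemma spec (hD : ∀ i, D (b i) = r i • b i) : ∃ P : ℝ → ℝ[X],
    (∀ l, IsIdempotentElem (aeval D (P l))) ∧ ∀ (G : End ℝ E) (g : ℝ → ℝ),
      (∀ i, G (b i) = g (r i) • b i) → G = ∑ l ∈ Finset.univ.image r, g l • aeval D (P l) := by
  choose P hP using fun l : ℝ => fn hD fun x => if x = l then 1 else 0
  refine ⟨P, fun l => b.ext fun i => ?_, fun G g hG => b.ext fun i => ?_⟩
  · rw [End.mul_apply, hP, map_smul, hP]; split_ifs <;> simp
  · rw [LinearMap.sum_apply, hG, Finset.sum_eq_single (r i)]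
    · simp [hP]
    · intro l _ hl; simp [hP, hl.symm]
    · simp

lemma Phi.idem (hφ : Phi M₀ M₁ φ) {e} (h : e ∈ PrA M₀ M₁) (he : IsIdempotentElem e) :
    IsIdempotentElem (φ e) := by rw [IsIdempotentElem, ← hφ.mul e h e h, he.eq]

lemma Phi.pos (hφ : Phi M₀ M₁ φ) (hD : ∀ i, D (b i) = r i • b i) (h : D ∈ PrA M₀ M₁)
    {G : End ℝ E} (g : ℝ → ℝ) (hG : ∀ i, G (b i) = g (r i) • b i) (hg : ∀ i, 0 ≤ g (r i)) :
    0 ≤ tr (φ G) := by
  obtain ⟨P, h1, h2⟩ := spec hD
  rw [h2 G g hG, map_sum, map_sum]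
  refine Finset.sum_nonneg fun l hl => ?_
  obtain ⟨i, -, rfl⟩ := Finset.mem_image.1 hl
  rw [map_smul, map_smul]
  exact mul_nonneg (hg i) (tr_idem_nonneg (hφ.idem (aeval_mem h _) (h1 _)))

lemma Phi.one_pos (hφ : Phi M₀ M₁ φ) (hlt : M₀ < M₁) : 0 < tr (φ 1) := by
  have h := hφ.idem (PrA M₀ M₁).one_mem IsIdempotentElem.one
  refine (tr_idem_nonneg h).lt_of_ne fun e => hlt.2 fun v hv => ?_
  exact (hφ.zero 1 (PrA M₀ M₁).one_mem).1
    (LinearMap.IsIdempotentElem.eq_zero_of_trace_eq_zero h e.symm) v hv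

lemma Irr.fac {h : Set (End ℝ E)} (hi : Irr h M₀ M₁) {R} (hR : R ∈ Cen h M₀ M₁ fun _ => hi.pr) :
    ∃ a c : ℝ, To (aeval R ((X - C a) ^ 2 + C (c ^ 2))) M₁ M₀ := by
  suffices ∀ q : ℝ[X], q ≠ 0 → To (aeval R q) M₁ M₀ → _ from
    this _ R.charpoly_monic.ne_zero fun v _ => by simp [LinearMap.aeval_self_charpoly]
  intro q
  induction hn : q.natDegree using Nat.strong_induction_on generalizing q with
  | _ n ih =>
  intro hq hT
  have step (f q' : ℝ[X]) (e : q = f * q') (hf : 0 < f.natDegree) (a c : ℝ)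
      (hd : f ∣ (X - C a) ^ 2 + C (c ^ 2)) :
      ∃ a c : ℝ, To (aeval R ((X - C a) ^ 2 + C (c ^ 2))) M₁ M₀ := by
    have f0 : f ≠ 0 := left_ne_zero_of_mul (e ▸ hq)
    have q0 : q' ≠ 0 := right_ne_zero_of_mul (e ▸ hq)
    have hc := aeval_mem hR f
    by_cases ex : ∃ v ∈ M₁, v ∉ M₀ ∧ aeval R f v ∈ M₀
    · obtain ⟨v, a1, a2, a3⟩ := ex
      have := hi.kill {aeval R f} (by rintro _ rfl; exact hc.1.1)
        (by rintro X hX _ rfl; exact Or.inr (hc.2 X hX)) ⟨v, a1, a2, by rintro _ rfl; exact a3⟩ _ rfl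
      obtain ⟨g, hg⟩ := hd
      refine ⟨a, c, ?_⟩
      rw [hg, map_mul]
      exact this.mul (aeval_mem hR g).1.2
    · push Not at ex
      refine ih q'.natDegree ?_ q' rfl q0 fun v hv => ?_
      · rw [← hn, e, natDegree_mul f0 q0]; omega
      · by_contra hv'
        refine ex _ ((aeval_mem hR q').1.2 v hv) hv' ?_
        have := hT v hv
        rwa [e, map_mul] at this
  by_cases h0 : q.degree = 0
  · exfalso
    rw [eq_C_of_degree_eq_zero h0] at hT hq
    refine hi.lt.2 fun v hv => ?_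
    have := hT v hv
    rw [aeval_C, Algebra.algebraMap_eq_smul_one] at this
    exact (M₀.smul_mem_iff (fun e => hq (by rw [e, map_zero]))).1 this
  obtain ⟨z, hz⟩ : ∃ z : ℂ, aeval z q = 0 := IsAlgClosed.exists_aeval_eq_zero _ q h0
  by_cases him : z.im = 0
  · have : q.IsRoot z.re := by
      have e : z = algebraMap ℝ ℂ z.re := Complex.ext (by simp) (by simpa)
      rw [e, aeval_algebraMap_apply] at hz
      simpa using hz
    obtain ⟨q', e⟩ := dvd_iff_isRoot.2 this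
    exact step _ q' e (by simp) z.re 0 ⟨X - C z.re, by simp [sq]⟩
  · obtain ⟨q', e⟩ := q.quadratic_dvd_of_aeval_eq_zero_im_ne_zero hz him
    have e2 : (X ^ 2 - C (2 * z.re) * X + C (‖z‖ ^ 2) : ℝ[X]) =
        (X - C z.re) ^ 2 + C (z.im ^ 2) := by
      rw [Complex.sq_norm, Complex.normSq_apply]
      simp only [map_add, map_mul, map_pow, map_ofNat]; ring
    refine step _ q' e ?_ z.re z.im (e2 ▸ dvd_rfl)
    have : (X ^ 2 - C (2 * z.re) * X + C (‖z‖ ^ 2) : ℝ[X]).natDegree = 2 := by compute_degree!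
    omega

lemma Irr.scal {h : Submodule ℝ (End ℝ E)} (hi : Irr (h : Set (End ℝ E)) M₀ M₁)
    (hD : ∀ i, D (b i) = r i • b i) (hm : D ∈ h) {D'} (hD' : D' ∈ br h h)
    (hR : D - D' ∈ Cen (h : Set (End ℝ E)) M₀ M₁ fun _ => hi.pr) :
    ∃ c : ℝ, To (D - D' - c • 1) M₁ M₀ := by
  obtain ⟨a, c, hc⟩ := hi.fac hR
  set S := D - D' - a • 1 with hS
  have Sc : S ∈ Cen (h : Set (End ℝ E)) M₀ M₁ fun _ => hi.pr :=
    Subalgebra.sub_mem _ hR (Subalgebra.smul_mem _ (Subalgebra.one_mem _) _)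
  have e : aeval (D - D') ((X - C a) ^ 2 + C (c ^ 2)) = S ^ 2 + c ^ 2 • 1 := by
    simp [hS, Algebra.algebraMap_eq_smul_one, _root_.smul_pow]
  rw [e] at hc
  by_cases c0 : c = 0
  · exact ⟨a, hi.kill1 Sc (j := 2) (by simpa [c0] using hc)⟩
  exfalso
  obtain ⟨φ, hφ⟩ := phi hi.lt.le
  have o := (PrA M₀ M₁).one_mem
  have s2 : φ S * φ S = -(c ^ 2) • φ 1 := by
    have := (hφ.zero _ ((PrA M₀ M₁).add_mem ((PrA M₀ M₁).pow_mem Sc.1 2)
      ((PrA M₀ M₁).smul_mem o _))).2 hc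
    rw [map_add, map_smul, sq, hφ.mul _ Sc.1 _ Sc.1] at this
    rw [neg_smul]; exact eq_neg_of_add_eq_zero_left this
  have t0 (q : ℝ[X]) (hq : IsIdempotentElem (aeval D q)) : tr (φ S * φ (aeval D q)) = 0 := by
    have m1 : aeval D q ∈ Cen {S} M₀ M₁ (by rintro _ rfl; exact Sc.1) :=
      aeval_mem (show D ∈ Cen {S} M₀ M₁ _ from ⟨hi.pr hm, by
        rintro _ rfl v hv
        have := M₀.neg_mem (Sc.2 D hm v hv)
        simpa using this⟩) q
    have cm := hφ.comm Sc.1 m1.1 (m1.2 S rfl)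
    have id := hφ.idem m1.1 hq
    have u : φ 1 * φ S = φ S := by rw [← hφ.mul _ o _ Sc.1, one_mul]
    have : tr (c⁻¹ • (φ S * φ (aeval D q))) = 0 := tr_cube _ (by
      rw [_root_.smul_pow, cm.mul_pow, id.pow_succ_eq 2, pow_succ (φ S), sq (φ S), s2, smul_mul_assoc, u,
        smul_mul_assoc, smul_smul, ← neg_smul]
      congr 1; field_simp)
    rw [map_smul, smul_eq_mul] at this
    exact (mul_eq_zero.1 this).resolve_left (inv_ne_zero c0)
  obtain ⟨P, h1, h2⟩ := spec hD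
  have t1 : tr (φ S * φ D) = 0 := by
    conv_lhs => rw [h2 D id hD, map_sum, Finset.mul_sum, map_sum]
    exact Finset.sum_eq_zero fun l _ => by rw [map_smul, mul_smul_comm, map_smul, t0 _ (h1 l)]; simp
  have t2 : tr (φ S * φ D') = 0 := hφ.tr_br (fun X hX => hi.pr hX) (fun X hX => hi.pr hX)
    (fun W hW => (hφ.comm (hi.pr hW) Sc.1 (Sc.2 W hW)).symm) _ hD'
  have t3 : tr (φ S * φ 1) = 0 := by simpa using t0 1 (by simpa using IsIdempotentElem.one)
  have t4 : tr (φ S * φ S) = 0 := by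
    have : φ S = φ D - φ D' - a • φ 1 := by rw [hS, map_sub, map_sub, map_smul]
    nth_rewrite 2 [this]
    rw [mul_sub, mul_sub, mul_smul_comm, map_sub, map_sub, map_smul, t1, t2, t3]; simp
  rw [s2, map_smul, smul_eq_mul] at t4
  have := hφ.one_pos hi.lt
  have : 0 < c ^ 2 := by positivity
  nlinarith

/-- **Purity.** -/
theorem pure {h : Submodule ℝ (End ℝ E)} (hl : ∀ X ∈ h, ∀ Y ∈ h, X * Y - Y * X ∈ h) (hm : D ∈ h)
    (hd : ∀ i, D (b i) = r i • b i ∧ ((0 < r i ∧ p (b i) = b i) ∨ (r i < 0 ∧ p (b i) = 0)))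
    (h0 : ∀ X ∈ h, ∀ Y ∈ h, tr (p * (X * Y - Y * X)) = 0) :
    ∃ R ∈ h, ∀ M₀ M₁, Irr (h : Set (End ℝ E)) M₀ M₁ → ∃ c : ℝ, To (R - c • 1) M₁ M₀ ∧
      ((0 < c ∧ To (1 - p) M₁ M₀) ∨ (c < 0 ∧ To p M₁ M₀)) := by
  have hD i := (hd i).1
  have bh : br h h ≤ h := br_le hl
  obtain ⟨D', hD', hc⟩ := exists_R hl hm
  obtain ⟨κ, κ0, hκ⟩ : ∃ κ : ℝ, 0 < κ ∧ ∀ i, κ ≤ |r i| := by
    rcases isEmpty_or_nonempty ι with _ | _
    · exact ⟨1, one_pos, fun i => isEmptyElim i⟩
    obtain ⟨i, hi⟩ := Finite.exists_min fun i => |r i|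
    exact ⟨_, abs_pos.2 (by rcases (hd i).2 with h | h; exacts [h.1.ne', h.1.ne]), hi⟩
  have hp (i) : p (b i) = (if 0 < r i then (1 : ℝ) else 0) • b i := by
    rcases (hd i).2 with h | h
    · simp [h.1, h.2]
    · simp [h.1.le, h.2]
  obtain ⟨q, hq⟩ := fn hD fun x => if 0 < x then 1 else 0
  have pq : p = aeval D q := b.ext fun i => by rw [hp, hq]
  have pi : IsIdempotentElem p := b.ext fun i => by
    rcases (hd i).2 with h | h <;> simp [h.2]
  have main (A B) (hi : Irr (h : Set (End ℝ E)) A B) : 0 ≤ tq B (p * D') - tq A (p * D') ∧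
      (tq B (p * D') - tq A (p * D') = 0 → ∃ c : ℝ, To (D - D' - c • 1) B A ∧
        ((0 < c ∧ To (1 - p) B A) ∨ (c < 0 ∧ To p B A))) := by
    obtain ⟨φ, hφ⟩ := phi hi.lt.le
    have o := (PrA A B).one_mem
    have mD := hi.pr hm
    have mD' := hi.pr (bh hD')
    have mp : p ∈ PrA A B := pq ▸ aeval_mem mD q
    have mq := (PrA A B).sub_mem o mp
    obtain ⟨c, hs⟩ := hi.scal hD hm hD' ⟨(PrA A B).sub_mem mD mD', hc A B hi⟩
    have z := (hφ.zero _ ((PrA A B).sub_mem ((PrA A B).sub_mem mD mD')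
      ((PrA A B).smul_mem o c))).2 hs
    have e1 : φ D' = φ D - c • φ 1 := by
      rw [map_sub, map_sub, map_smul] at z
      rw [← sub_eq_zero, ← neg_eq_zero, ← z]; abel
    have t' : tr (φ D') = 0 := by
      simpa using hφ.tr_br (a := 1) (fun X hX => hi.pr hX) (fun X hX => hi.pr hX)
        (fun W _ => Commute.one_left _) _ hD'
    have n0 := hφ.one_pos hi.lt
    have u0 := tr_idem_nonneg (hφ.idem mp pi)
    have s0 := tr_idem_nonneg (hφ.idem mq pi.one_sub)
    have b0 := hφ.pos hD mD (G := p * D - κ • p) (fun x => if 0 < x then x - κ else 0)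
      (fun i => by
        rcases (hd i).2 with h | h
        · simp [hD, h.1, h.2, sub_smul]
        · simp [hD, h.1.le, h.2])
      fun i => by
        split_ifs with h
        · have := hκ i; rw [abs_of_pos h] at this; linarith
        · rfl
    have a0 := hφ.pos hD mD (G := -((1 - p) * D) - κ • (1 - p))
      (fun x => if 0 < x then 0 else -x - κ)
      (fun i => by
        rcases (hd i).2 with h | h
        · simp [hD, h.1, h.2]
        · simp [hD, h.1.le, h.2, sub_smul])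
      fun i => by
        split_ifs with h
        · rfl
        · have := hκ i; rw [abs_of_nonpos (not_lt.1 h)] at this; linarith
    have d : tq B (p * D') - tq A (p * D') = tr (φ (p * D)) - c * tr (φ p) := by
      rw [← hφ.trc _ ((PrA A B).mul_mem mp mD'), hφ.mul _ mp _ mD', e1, mul_sub, mul_smul_comm,
        ← hφ.mul _ mp _ mD, ← hφ.mul _ mp _ o, mul_one, map_sub, map_smul, smul_eq_mul]
    rw [e1, map_sub, map_smul, smul_eq_mul] at t'
    simp only [sub_mul, one_mul, map_sub, map_neg, map_smul, smul_eq_mul] at s0 b0 a0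
    rw [d]
    generalize hu : tr (φ p) = u at *
    generalize hn : tr (φ 1) = n at *
    generalize hB : tr (φ (p * D)) = β at *
    generalize hT : tr (φ D) = T at *
    have key : n * (β - c * u) = (β - κ * u) * (n - u) + (-(T - β) - κ * (n - u)) * u
        + 2 * κ * (u * (n - u)) := by linear_combination u * t'
    have k1 := mul_nonneg b0 s0
    have k2 := mul_nonneg a0 u0
    have k3 := mul_nonneg u0 s0
    refine ⟨by nlinarith, fun e => ⟨c, hs, ?_⟩⟩
    have k4 : u * (n - u) = 0 := by rw [e] at key; nlinarith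
    rcases mul_eq_zero.1 k4 with e' | e'
    · refine Or.inr ⟨?_, (hφ.zero p mp).1 (LinearMap.IsIdempotentElem.eq_zero_of_trace_eq_zero
        (hφ.idem mp pi) (hu.trans e'))⟩
      subst e'; nlinarith
    · refine Or.inl ⟨?_, (hφ.zero _ mq).1 (LinearMap.IsIdempotentElem.eq_zero_of_trace_eq_zero
        (hφ.idem mq pi.one_sub) (by rw [map_sub, map_sub, hu, hn, e']))⟩
      obtain rfl : n = u := by linarith
      nlinarith
  have all {A B} := ind (h := (h : Set (End ℝ E)))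
    (P := fun A B => 0 ≤ tq B (p * D') - tq A (p * D')) (fun _ _ => by simp)
    (fun A B hi => (main A B hi).1) (fun _ _ _ _ _ _ _ _ a b => by linarith) (M₀ := A) (M₁ := B)
  have tot : tr (p * D') = 0 := by
    clear main all hc
    induction hD' using Submodule.span_induction with
    | mem x hx => obtain ⟨X, hX, Y, hY, rfl⟩ := hx; exact h0 X hX Y hY
    | zero => simp
    | add x y _ _ hx hy => rw [mul_add, map_add, hx, hy, add_zero]
    | smul c x _ hx => rw [mul_smul_comm, map_smul, hx, smul_zero]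
  refine ⟨D - D', h.sub_mem hm (bh hD'), fun A B hi => (main A B hi).2 ?_⟩
  have a1 := all (inv_bot _) hi.i0 bot_le
  have a2 := all hi.i1 (inv_top _) le_top
  have a3 := (main A B hi).1
  rw [tq_bot] at a1
  rw [tq_top, tot] at a2
  linarith

end Crest.Agent.N221.Pur
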