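import Mathlib

/-!
Row 221, block Hu: families of subspaces of class `C^n` (`n = 0`: continuous, `n = ∞`: smooth).
* `Pj n F U`: a `C^n` projector onto `F z` on `U`; `SmAt n F z`: the same near `z`;
* `Gen n F z`: near `z`, `F` is the span of finitely many `C^n` sections (rank is lsc);
* `Cut n F z`: near `z`, `F` is the kernel of a `C^n` family of linear maps (rank is usc);
* `Gen`, `Cut` families are `SmAt` at a point of every nonempty open set.
-/

set_option autoImplicit false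
set_option linter.unusedSectionVars false
set_option linter.unusedVariables false

open Set Filter Topology Module
open scoped ContDiff

noncomputable section

namespace Crest.Agent.N221.SB

variable {P W W' W'' : Type} [NormedAddCommGroup P] [NormedSpace ℝ P]
  [NormedAddCommGroup W] [NormedSpace ℝ W] [FiniteDimensional ℝ W]
  [NormedAddCommGroup W'] [NormedSpace ℝ W'] [FiniteDimensional ℝ W']
  [NormedAddCommGroup W''] [NormedSpace ℝ W''] [FiniteDimensional ℝ W'']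
  {n : WithTop ℕ∞} {F G : P → Submodule ℝ W} {U : Set P} {z : P}

/-- `f` is `C^n` on an open neighbourhood of `z` -/
def Cn {E : Type} [NormedAddCommGroup E] [NormedSpace ℝ E] (n : WithTop ℕ∞) (f : P → E) (z : P) :
    Prop := ∀ᶠ y in 𝓝 z, ContDiffAt ℝ n f y

/-- `p` is a projector onto `K` -/
def IsPj (p : W →L[ℝ] W) (K : Submodule ℝ W) : Prop := (∀ w, p w ∈ K) ∧ ∀ w ∈ K, p w = w

/-- a family of subspaces that is `C^n` near `z` -/
def SmAt (n : WithTop ℕ∞) (F : P → Submodule ℝ W) (z : P) : Prop :=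
  ∃ p : P → W →L[ℝ] W, Cn n p z ∧ ∀ᶠ y in 𝓝 z, IsPj (p y) (F y)

/-- near `z` the family is spanned by finitely many `C^n` sections -/
def Gen (n : WithTop ℕ∞) (F : P → Submodule ℝ W) (z : P) : Prop :=
  ∃ (k : ℕ) (A : P → (Fin k → ℝ) →L[ℝ] W), Cn n A z ∧ ∀ᶠ y in 𝓝 z, F y = (A y).range

/-- near `z` the family is cut out by finitely many `C^n` equations -/
def Cut (n : WithTop ℕ∞) (F : P → Submodule ℝ W) (z : P) : Prop :=
  ∃ (k : ℕ) (A : P → W →L[ℝ] (Fin k → ℝ)), Cn n A z ∧ ∀ᶠ y in 𝓝 z, F y = (A y).ker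

section Cn
variable {E E' : Type} [NormedAddCommGroup E] [NormedSpace ℝ E] [NormedAddCommGroup E']
  [NormedSpace ℝ E'] {f g : P → E}

lemma Cn.at (h : Cn n f z) : ContDiffAt ℝ n f z := h.self_of_nhds
lemma Cn.ev (h : Cn n f z) : ∀ᶠ y in 𝓝 z, Cn n f y := h.eventually_nhds
lemma Cn.cont (h : Cn n f z) : ContinuousAt f z := h.at.continuousAt
lemma Cn.of_on (h : ContDiffOn ℝ n f U) (hU : IsOpen U) (hz : z ∈ U) : Cn n f z := by
  filter_upwards [hU.mem_nhds hz] with y hy using h.contDiffAt (hU.mem_nhds hy)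
lemma Cn.exists_on (h : Cn n f z) : ∃ U, IsOpen U ∧ z ∈ U ∧ ContDiffOn ℝ n f U := by
  obtain ⟨U, h1, h2, h3⟩ := eventually_nhds_iff.1 h
  exact ⟨U, h2, h3, fun y hy => (h1 y hy).contDiffWithinAt⟩
lemma Cn.const (c : E) : Cn n (fun _ : P => c) z := Eventually.of_forall fun _ => contDiffAt_const
lemma Cn.of_le {m : WithTop ℕ∞} (h : Cn n f z) (hm : m ≤ n) : Cn m f z :=
  h.mono fun _ h => h.of_le hm
lemma Cn.of_cont (h : ∀ᶠ y in 𝓝 z, ContinuousAt f y) : Cn 0 f z := by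
  obtain ⟨U, h1, h2, h3⟩ := eventually_nhds_iff.1 h
  exact Cn.of_on (contDiffOn_zero.2 fun y hy => (h1 y hy).continuousWithinAt) h2 h3
lemma Cn.congr (h : Cn n f z) (e : g =ᶠ[𝓝 z] f) : Cn n g z := by
  filter_upwards [h, e.eventually_nhds] with y h1 h2 using h1.congr_of_eventuallyEq h2
end Cn

lemma IsPj.range {p : W →L[ℝ] W} {K : Submodule ℝ W} (h : IsPj p K) : p.range = K :=
  le_antisymm (by rintro _ ⟨w, rfl⟩; exact h.1 w) fun w hw => ⟨w, h.2 w hw⟩

lemma IsPj.ker {p : W →L[ℝ] W} {K : Submodule ℝ W} (h : IsPj p K) : (1 - p).ker = K := by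
  ext w
  have : w ∈ (1 - p).ker ↔ w - p w = 0 := Iff.rfl
  rw [this, sub_eq_zero]
  exact ⟨fun e => e ▸ h.1 w, fun hw => (h.2 w hw).symm⟩

lemma IsPj.idem {p : W →L[ℝ] W} {K : Submodule ℝ W} (h : IsPj p K) (w : W) : p (p w) = p w :=
  h.2 _ (h.1 w)

lemma exists_isPj (K : Submodule ℝ W) : ∃ p : W →L[ℝ] W, IsPj p K := by
  obtain ⟨C, hC⟩ := K.exists_isCompl
  refine ⟨LinearMap.toContinuousLinearMap (K.subtype ∘ₗ K.projectionOnto C hC), fun w => ?_,
    fun w hw => ?_⟩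
  · simp
  · simpa using congrArg Subtype.val (Submodule.projectionOnto_apply_left hC ⟨w, hw⟩)

/-- the inverse of an invertible family -/
lemma inv {g : P → W →L[ℝ] W} (h : Cn n g z) (hz : IsUnit (g z)) :
    Cn n (fun y => Ring.inverse (g y)) z ∧ ∀ᶠ y in 𝓝 z, IsUnit (g y) := by
  have := FiniteDimensional.complete ℝ W
  have h1 : ∀ᶠ y in 𝓝 z, IsUnit (g y) := h.cont.eventually (Units.isOpen.mem_nhds hz)
  refine ⟨?_, h1⟩
  filter_upwards [h, h1] with y h2 h3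
  obtain ⟨u, hu⟩ := h3
  exact (hu ▸ contDiffAt_ringInverse ℝ u : ContDiffAt ℝ n Ring.inverse (g y)).comp y h2

lemma inv_apply {g : W →L[ℝ] W} (h : IsUnit g) (w : W) : Ring.inverse g (g w) = w := by
  exact congrArg (fun f : W →L[ℝ] W => f w) (Ring.inverse_mul_cancel _ h)

lemma apply_inv {g : W →L[ℝ] W} (h : IsUnit g) (w : W) : g (Ring.inverse g w) = w := by
  exact congrArg (fun f : W →L[ℝ] W => f w) (Ring.mul_inverse_cancel _ h)

lemma finrank_map_unit {g : W →L[ℝ] W} (h : IsUnit g) (K : Submodule ℝ W) :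
    finrank ℝ (K.map (g : W →ₗ[ℝ] W)) = finrank ℝ K :=
  (Submodule.equivMapOfInjective _ (fun a b e => by
    simpa [inv_apply h] using congrArg (fun w => Ring.inverse g w) e) K).finrank_eq.symm

/-- a generalized inverse -/
lemma exists_ginv (A : W →L[ℝ] W') : ∃ B : W' →L[ℝ] W, (∀ w, A (B (A w)) = A w) ∧
    ∀ w, B (A (B w)) = B w := by
  obtain ⟨p, hp⟩ := exists_isPj A.range
  obtain ⟨s, hs⟩ := (A : W →ₗ[ℝ] W').rangeRestrict.exists_rightInverse_of_surjective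
    (LinearMap.range_rangeRestrict _)
  have h1 : ∀ x : A.range, A (s x) = x := fun x => congrArg Subtype.val (LinearMap.congr_fun hs x)
  let B := LinearMap.toContinuousLinearMap (s ∘ₗ (p : W' →ₗ[ℝ] W').codRestrict _ hp.1)
  have h2 : ∀ w, A (B w) = p w := fun w => h1 _
  refine ⟨B, fun w => (h2 _).trans (hp.2 _ ⟨w, rfl⟩), fun w => ?_⟩
  rw [h2]
  exact congrArg s (Subtype.ext (hp.idem w))

/-- the normal form of a family of linear maps near `z` -/
lemma normal {A : P → W →L[ℝ] W'} (h : Cn n A z) :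
    (∀ᶠ y in 𝓝 z, finrank ℝ (A z).range ≤ finrank ℝ (A y).range) ∧
    ((∀ᶠ y in 𝓝 z, finrank ℝ (A y).range ≤ finrank ℝ (A z).range) →
      SmAt n (fun y => (A y).range) z ∧ SmAt n (fun y => (A y).ker) z) := by
  obtain ⟨B, h1, h2⟩ := exists_ginv (A z)
  let g : P → W' →L[ℝ] W' := fun y => 1 + (A y - A z) ∘L B
  have hg : Cn n g z := h.mono fun y hy =>
    contDiffAt_const.add ((hy.sub contDiffAt_const).clm_comp contDiffAt_const)
  obtain ⟨hi, hu⟩ := inv hg (by simp [g])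
  have e1 : ∀ y w, g y (A z w) = A y (B (A z w)) := fun y w => by simp [g, h1]
  have e2 : ∀ y, (A z).range.map (g y : W' →ₗ[ℝ] W') ≤ (A y).range := by
    rintro y _ ⟨_, ⟨w, rfl⟩, rfl⟩
    exact ⟨_, (e1 y w).symm⟩
  refine ⟨hu.mono fun y hy => finrank_map_unit hy _ ▸ Submodule.finrank_mono (e2 y), fun hr => ?_⟩
  have e3 : ∀ᶠ y in 𝓝 z, ∀ w, ∃ v, A y w = g y (A z v) := by
    filter_upwards [hu, hr] with y hy hr w
    have := Submodule.eq_of_le_of_finrank_le (e2 y) (by rwa [finrank_map_unit hy])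
    obtain ⟨_, ⟨v, rfl⟩, e⟩ := this.ge (⟨w, rfl⟩ : A y w ∈ (A y).range)
    exact ⟨v, e.symm⟩
  refine ⟨⟨fun y => g y ∘L (A z ∘L B) ∘L Ring.inverse (g y), ?_, ?_⟩,
    ⟨fun y => 1 - B ∘L Ring.inverse (g y) ∘L A y, ?_, ?_⟩⟩
  · filter_upwards [hg, hi] with y a b using a.clm_comp (contDiffAt_const.clm_comp b)
  · filter_upwards [hu, e3] with y hy e3
    refine ⟨fun w => e2 y ⟨_, ⟨_, rfl⟩, rfl⟩, ?_⟩
    rintro _ ⟨w, rfl⟩
    obtain ⟨v, e⟩ := e3 w
    simp [e, inv_apply hy, h1]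
  · filter_upwards [h, hi] with y a b
    exact contDiffAt_const.sub (contDiffAt_const.clm_comp (b.clm_comp a))
  · filter_upwards [hu, e3] with y hy e3
    refine ⟨fun w => ?_, fun w hw => ?_⟩
    · obtain ⟨v, e⟩ := e3 w
      simp [e, inv_apply hy, ← e1]
    · have : A y w = 0 := hw
      simp [this]

lemma SmAt.ev (h : SmAt n F z) : ∀ᶠ y in 𝓝 z, SmAt n F y := by
  obtain ⟨p, h1, h2⟩ := h
  filter_upwards [h1.ev, h2.eventually_nhds] with y a b using ⟨p, a, b⟩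

lemma Gen.ev (h : Gen n F z) : ∀ᶠ y in 𝓝 z, Gen n F y := by
  obtain ⟨k, p, h1, h2⟩ := h
  filter_upwards [h1.ev, h2.eventually_nhds] with y a b using ⟨k, p, a, b⟩

lemma Cut.ev (h : Cut n F z) : ∀ᶠ y in 𝓝 z, Cut n F y := by
  obtain ⟨k, p, h1, h2⟩ := h
  filter_upwards [h1.ev, h2.eventually_nhds] with y a b using ⟨k, p, a, b⟩

lemma isOpen_smAt (n : WithTop ℕ∞) (F : P → Submodule ℝ W) : IsOpen {z | SmAt n F z} :=
  isOpen_iff_mem_nhds.2 fun _ h => h.ev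

lemma SmAt.congr (h : SmAt n F z) (e : ∀ᶠ y in 𝓝 z, G y = F y) : SmAt n G z := by
  obtain ⟨p, h1, h2⟩ := h
  exact ⟨p, h1, by filter_upwards [h2, e] with y a b using b ▸ a⟩

lemma Gen.congr (h : Gen n F z) (e : ∀ᶠ y in 𝓝 z, G y = F y) : Gen n G z := by
  obtain ⟨k, p, h1, h2⟩ := h
  exact ⟨k, p, h1, by filter_upwards [h2, e] with y a b using b ▸ a⟩

lemma Cut.congr (h : Cut n F z) (e : ∀ᶠ y in 𝓝 z, G y = F y) : Cut n G z := by
  obtain ⟨k, p, h1, h2⟩ := h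
  exact ⟨k, p, h1, by filter_upwards [h2, e] with y a b using b ▸ a⟩

lemma SmAt.of_le {m : WithTop ℕ∞} (h : SmAt n F z) (hm : m ≤ n) : SmAt m F z := by
  obtain ⟨p, h1, h2⟩ := h
  exact ⟨p, h1.of_le hm, h2⟩

lemma SmAt.const (K : Submodule ℝ W) : SmAt n (fun _ : P => K) z := by
  obtain ⟨p, hp⟩ := exists_isPj K
  exact ⟨fun _ => p, Cn.const p, Eventually.of_forall fun _ => hp⟩

lemma Gen.range {A : P → W' →L[ℝ] W} (h : Cn n A z) : Gen n (fun y => (A y).range) z := by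
  let e := (finBasis ℝ W').equivFunL
  refine ⟨finrank ℝ W', fun y => A y ∘L (e.symm : _ →L[ℝ] W'),
    h.mono fun y a => by exact a.clm_comp contDiffAt_const, Eventually.of_forall fun y => le_antisymm ?_ ?_⟩
  · rintro _ ⟨w, rfl⟩
    exact ⟨e w, by simp⟩
  · rintro _ ⟨w, rfl⟩
    exact ⟨_, rfl⟩

lemma Cut.ker {A : P → W →L[ℝ] W'} (h : Cn n A z) : Cut n (fun y => (A y).ker) z := by
  let e := (finBasis ℝ W').equivFunL
  refine ⟨finrank ℝ W', fun y => (e : W' →L[ℝ] _) ∘L A y,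
    h.mono fun y a => by exact contDiffAt_const.clm_comp a, Eventually.of_forall fun y => ?_⟩
  ext w
  simp

lemma SmAt.gen (h : SmAt n F z) : Gen n F z := by
  obtain ⟨p, h1, h2⟩ := h
  exact (Gen.range h1).congr (h2.mono fun y a => a.range.symm)

lemma SmAt.cut (h : SmAt n F z) : Cut n F z := by
  obtain ⟨p, h1, h2⟩ := h
  exact (Cut.ker (A := fun y => 1 - p y) (h1.mono fun y a => contDiffAt_const.sub a)).congr
    (h2.mono fun y a => a.ker.symm)

lemma Gen.lsc (h : Gen n F z) : ∀ᶠ y in 𝓝 z, finrank ℝ (F z) ≤ finrank ℝ (F y) := by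
  obtain ⟨k, A, h1, h2⟩ := h
  filter_upwards [h2, (normal h1).1] with y a b
  rwa [a, h2.self_of_nhds]

lemma rank_ker (A : W →L[ℝ] W') : finrank ℝ A.range + finrank ℝ A.ker = finrank ℝ W :=
  LinearMap.finrank_range_add_finrank_ker _

lemma Cut.usc (h : Cut n F z) : ∀ᶠ y in 𝓝 z, finrank ℝ (F y) ≤ finrank ℝ (F z) := by
  obtain ⟨k, A, h1, h2⟩ := h
  filter_upwards [h2, (normal h1).1] with y a b
  rw [a, h2.self_of_nhds]
  have := rank_ker (A y)
  have := rank_ker (A z)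
  omega

lemma SmAt.rank (h : SmAt n F z) : ∀ᶠ y in 𝓝 z, finrank ℝ (F y) = finrank ℝ (F z) := by
  filter_upwards [h.gen.lsc, h.cut.usc] with y a b using le_antisymm b a

lemma Gen.smAt (h : Gen n F z) (hr : ∀ᶠ y in 𝓝 z, finrank ℝ (F y) ≤ finrank ℝ (F z)) :
    SmAt n F z := by
  obtain ⟨k, A, h1, h2⟩ := h
  refine ((normal h1).2 ?_).1.congr h2
  filter_upwards [h2, hr] with y a b
  rwa [← a, ← h2.self_of_nhds]

lemma Cut.smAt (h : Cut n F z) (hr : ∀ᶠ y in 𝓝 z, finrank ℝ (F z) ≤ finrank ℝ (F y)) :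
    SmAt n F z := by
  obtain ⟨k, A, h1, h2⟩ := h
  refine ((normal h1).2 ?_).2.congr h2
  filter_upwards [h2, hr] with y a b
  rw [a, h2.self_of_nhds] at b
  have := rank_ker (A y)
  have := rank_ker (A z)
  omega

lemma exists_max {α : Type} {s : Set α} (hne : s.Nonempty) (f : α → ℕ) {b : ℕ} (hb : ∀ y, f y ≤ b) :
    ∃ y ∈ s, ∀ x ∈ s, f x ≤ f y := by
  have : (f '' s).Finite := (finite_Iic b).subset (by rintro _ ⟨y, -, rfl⟩; exact hb y)
  obtain ⟨_, ⟨y, hy, rfl⟩, h⟩ := exists_max_image _ id this (hne.image f)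
  exact ⟨y, hy, fun x hx => h _ ⟨x, hx, rfl⟩⟩

lemma exists_min {α : Type} {s : Set α} (hne : s.Nonempty) (f : α → ℕ) :
    ∃ y ∈ s, ∀ x ∈ s, f y ≤ f x :=
  ⟨Function.argminOn f s hne, Function.argminOn_mem f s hne, fun _ hx => Function.argminOn_le f s hx⟩

/-- a generated family is smooth at a point of maximal rank -/
lemma Gen.exists_smAt (hU : IsOpen U) (hne : U.Nonempty) (h : ∀ y ∈ U, Gen n F y) :
    ∃ y ∈ U, SmAt n F y := by
  obtain ⟨y, hy, hm⟩ := exists_max hne (fun y => finrank ℝ (F y)) fun y => (F y).finrank_le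
  exact ⟨y, hy, (h y hy).smAt (by filter_upwards [hU.mem_nhds hy] with x hx using hm x hx)⟩

/-- a family cut out by equations is smooth at a point of minimal rank -/
lemma Cut.exists_smAt (hU : IsOpen U) (hne : U.Nonempty) (h : ∀ y ∈ U, Cut n F y) :
    ∃ y ∈ U, SmAt n F y := by
  obtain ⟨y, hy, hm⟩ := exists_min hne fun y => finrank ℝ (F y)
  exact ⟨y, hy, (h y hy).smAt (by filter_upwards [hU.mem_nhds hy] with x hx using hm x hx)⟩

/-- shrinking: a smaller nonempty open set on which the family is smooth of constant rank -/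
lemma SmAt.shrink (h : SmAt n F z) (hU : IsOpen U) (hz : z ∈ U) :
    ∃ V, IsOpen V ∧ z ∈ V ∧ V ⊆ U ∧ (∀ y ∈ V, finrank ℝ (F y) = finrank ℝ (F z)) ∧
      (∀ y ∈ V, SmAt n F y) ∧ ∃ p : P → W →L[ℝ] W, ContDiffOn ℝ n p V ∧ ∀ y ∈ V, IsPj (p y) (F y) := by
  have h0 := h.rank
  have h' := h.ev
  obtain ⟨p, h1, h2⟩ := h
  obtain ⟨V, a, b, c⟩ := eventually_nhds_iff.1
    (h0.and (h'.and (h1.and (h2.and (hU.mem_nhds hz)))))
  exact ⟨V, b, c, fun y hy => (a y hy).2.2.2.2, fun y hy => (a y hy).1, fun y hy => (a y hy).2.1, p,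
    fun y hy => (a y hy).2.2.1.contDiffWithinAt, fun y hy => (a y hy).2.2.2.1⟩

lemma Gen.shrink (hU : IsOpen U) (hne : U.Nonempty) (h : ∀ y ∈ U, Gen n F y) :
    ∃ V, IsOpen V ∧ V.Nonempty ∧ V ⊆ U ∧ ∀ y ∈ V, SmAt n F y := by
  obtain ⟨y, hy, h⟩ := Gen.exists_smAt hU hne h
  obtain ⟨V, a, b, c, -, d, -⟩ := h.shrink hU hy
  exact ⟨V, a, ⟨y, b⟩, c, d⟩

lemma Cut.shrink (hU : IsOpen U) (hne : U.Nonempty) (h : ∀ y ∈ U, Cut n F y) :
    ∃ V, IsOpen V ∧ V.Nonempty ∧ V ⊆ U ∧ ∀ y ∈ V, SmAt n F y := by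
  obtain ⟨y, hy, h⟩ := Cut.exists_smAt hU hne h
  obtain ⟨V, a, b, c, -, d, -⟩ := h.shrink hU hy
  exact ⟨V, a, ⟨y, b⟩, c, d⟩

end Crest.Agent.N221.SB
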